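import Vale.Agent.P165.TL.Decode

/-!
# Products of trees: the mass of balls

Elements of a ball joined by markers give one element whose geodesics pass through all of them, so
their lengths and the markers determine the factors.
-/

namespace Vale.Agent.P165.TL

open Finset

namespace TreeAct

variable {κ Γ : Type} [Group Γ] (D : TreeAct κ Γ)

/-- A marker that may be inserted between two elements. -/
noncomputable def glue {C : Finset Γ} (hC : D.IsMarkers C) (w u : Γ) : Γ :=
  (hC (fun t => D.dir w⁻¹ t) (fun t => D.dir w⁻¹ t) (fun t => D.dir u t)).choose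

theorem glue_mem {C : Finset Γ} (hC : D.IsMarkers C) (w u : Γ) : D.glue hC w u ∈ C :=
  (hC (fun t => D.dir w⁻¹ t) (fun t => D.dir w⁻¹ t) (fun t => D.dir u t)).choose_spec.1

/-- The elements of a list, separated by markers. -/
noncomputable def join {C : Finset Γ} (hC : D.IsMarkers C) : List Γ → Γ
  | [] => 1
  | w :: ws => w * (D.glue hC w (join hC ws) * join hC ws)

theorem len_join {C : Finset Γ} (hC : D.IsMarkers C) (w : Γ) (ws : List Γ) (t : κ) :
    D.len t (D.join hC (w :: ws)) =
      D.len t w + D.len t (D.glue hC w (D.join hC ws) * D.join hC ws) := by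
  obtain ⟨-, h⟩ := (hC (fun t => D.dir w⁻¹ t) (fun t => D.dir w⁻¹ t)
    (fun t => D.dir (D.join hC ws) t)).choose_spec
  obtain ⟨h1, h2, -, h4, -⟩ := h t
  have e := D.len_mul t (D.glue hC w (D.join hC ws)) (D.join hC ws) (Or.inr (Or.inr h4))
  rw [join]
  refine D.len_mul t _ _ (Or.inr (Or.inr fun heq => h2 ?_))
  show D.dir (D.glue hC w (D.join hC ws)) t = D.dir w⁻¹ t
  rw [heq, dir, dir, D.geo_left t e h1]

variable [Fintype κ] [DecidableEq Γ]

/-- The lists of `i` elements of a ball. -/
noncomputable def words (R : ℕ) : ℕ → Finset (List Γ)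
  | 0 => {[]}
  | i + 1 => (D.ball R ×ˢ words R i).image fun q => q.1 :: q.2

theorem card_fiber {C : Finset Γ} (hC : D.IsMarkers C) (R : ℕ) :
    ∀ (i : ℕ) (g : Γ), ((D.words R i).filter fun l => D.join hC l = g).card ≤
      (C.card * (R + 1) ^ Fintype.card κ) ^ i
  | 0, g => by
      refine (card_filter_le _ _).trans ?_
      simp [words]
  | i + 1, g => by
      classical
      have hsub : (D.words R (i + 1)).filter (fun l => D.join hC l = g) ⊆
          (C ×ˢ D.between R g).biUnion fun q =>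
            ((D.words R i).filter fun l => D.join hC l = q.1⁻¹ * q.2⁻¹ * g).image (q.2 :: ·) := by
        intro l hl
        obtain ⟨hl, hg⟩ := mem_filter.1 hl
        rw [words] at hl
        obtain ⟨⟨w, ws⟩, hq, rfl⟩ := mem_image.1 hl
        obtain ⟨hw, hws⟩ := mem_product.1 hq
        refine mem_biUnion.2 ⟨(D.glue hC w (D.join hC ws), w), mem_product.2 ⟨D.glue_mem hC _ _,
          mem_filter.2 ⟨hw, fun t => ?_⟩⟩, mem_image.2 ⟨ws, mem_filter.2 ⟨hws, ?_⟩, rfl⟩⟩
        · have h := D.len_join hC w ws t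
          rw [join] at h
          show D.geo g t (D.len t w) = D.at' w t
          rw [← hg, join, D.geo_left t h le_rfl, geo]
          exact pt_dist (D.tree t) _ _
        · dsimp only
          rw [← hg, join]
          group
      refine (card_le_card hsub).trans (card_biUnion_le.trans ((sum_le_card_nsmul _ _ _
        fun q _ => card_image_le.trans (card_fiber hC R i _)).trans ?_))
      rw [smul_eq_mul, card_product, pow_succ']
      exact Nat.mul_le_mul_right _ (Nat.mul_le_mul_left _ (D.card_between R g))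

variable {O ι : Type} [DecidableEq O] [Fintype ι] {G : SimpleGraph (Γ × O)}
  {nb : Γ × O → ι → Γ × O}

/-- The mass of a ball grows at most polynomially, uniformly below the critical parameter. -/
theorem ball_sum (hl : Labelling G nb) (hinv : FF.Inv G) {C : Finset Γ} (hC : D.IsMarkers C)
    {p δ X : ℝ} (h0 : 0 ≤ p) (h1 : p ≤ 1) (hδ0 : 0 ≤ δ)
    (hδ : ∀ x y : Γ × O, x.1⁻¹ * y.1 ∈ insert 1 C → δ ≤ FF.T nb p x y)
    (hX : ∀ (S F : Finset (Γ × O)) (x : Γ × O), ∑ y ∈ F, tauIn nb S p x y ≤ X)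
    (R : ℕ) (o o' : O) :
    δ ^ 2 * ∑ g ∈ D.ball R, FF.T nb p (1, o) (g, o') ≤
      (C.card : ℝ) * ((R : ℝ) + 1) ^ Fintype.card κ := by
  classical
  set F : Γ → ℝ := fun g => FF.T nb p (1, o) (g, o)
  have hF0 : ∀ g, 0 ≤ F g := fun g => FF.T_nonneg h0 h1 _ _
  suffices hmain : δ * ∑ g ∈ D.ball R, F g ≤ (C.card : ℝ) * ((R : ℝ) + 1) ^ Fintype.card κ by
    refine le_trans ?_ hmain
    rw [pow_two, mul_assoc, mul_sum]
    refine mul_le_mul_of_nonneg_left (sum_le_sum fun g _ => ?_) hδ0
    rw [mul_comm]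
    refine le_trans (mul_le_mul_of_nonneg_left (hδ (g, o') (g, o) ?_) (FF.T_nonneg h0 h1 _ _))
      (FF.T_trans hl h0 h1 _ _ _)
    simp
  have hchain : ∀ l : List Γ, (l.map fun g => δ * F g).prod ≤ F (D.join hC l) := by
    intro l
    induction l with
    | nil =>
      rw [List.map_nil, List.prod_nil, join]
      exact (FF.T_self h0 h1 _).ge
    | cons w ws ih =>
      set c := D.glue hC w (D.join hC ws)
      rw [List.map_cons, List.prod_cons, join]
      refine (mul_le_mul_of_nonneg_left ih (mul_nonneg hδ0 (hF0 w))).trans ?_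
      have e : F (D.join hC ws) = FF.T nb p (w * c, o) (w * (c * D.join hC ws), o) := by
        have := FF.T_tr hl hinv (w * c) h0 h1 ((1 : Γ), o) (D.join hC ws, o)
        simp only [FF.tr, mul_one, mul_assoc] at this
        exact this.symm
      rw [e, mul_comm δ]
      refine le_trans (mul_le_mul_of_nonneg_right (le_trans (mul_le_mul_of_nonneg_left
        (hδ (w, o) (w * c, o) ?_) (hF0 w)) (FF.T_trans hl h0 h1 _ _ _)) (FF.T_nonneg h0 h1 _ _))
        (FF.T_trans hl h0 h1 _ _ _)
      simpa using Or.inr (D.glue_mem hC w (D.join hC ws))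
  have hC0 : 0 < C.card := by
    obtain ⟨c, hc, -⟩ := hC D.o D.o D.o
    exact card_pos.2 ⟨c, hc⟩
  refine FF.le_of_pow_le (X := X) (mul_pos (by exact_mod_cast hC0) (by positivity)) fun i => ?_
  have hpow : ∀ i, (δ * ∑ g ∈ D.ball R, F g) ^ i =
      ∑ l ∈ D.words R i, (l.map fun g => δ * F g).prod := by
    intro i
    induction i with
    | zero => simp [words]
    | succ i ih =>
      rw [words, sum_image fun a _ b _ h => Prod.ext (List.cons.inj h).1 (List.cons.inj h).2,
        sum_product, pow_succ', ih, mul_sum (s := D.ball R), sum_mul]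
      refine sum_congr rfl fun w _ => ?_
      simp only [List.map_cons, List.prod_cons]
      rw [mul_sum (s := D.words R i)]
  rw [hpow]
  set U := D.words R i
  calc ∑ l ∈ U, (l.map fun g => δ * F g).prod
      ≤ ∑ l ∈ U, F (D.join hC l) := sum_le_sum fun l _ => hchain l
    _ = ∑ g ∈ U.image (D.join hC),
          ((U.filter fun l => D.join hC l = g).card : ℝ) * F g := by
        rw [← sum_fiberwise_of_maps_to (g := D.join hC) fun l hl => mem_image_of_mem _ hl]
        refine sum_congr rfl fun g _ => ?_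
        rw [sum_congr rfl fun l hl => congrArg F (mem_filter.1 hl).2, sum_const, nsmul_eq_mul]
    _ ≤ ∑ g ∈ U.image (D.join hC),
          ((C.card : ℝ) * ((R : ℝ) + 1) ^ Fintype.card κ) ^ i * F g := by
        refine sum_le_sum fun g _ => mul_le_mul_of_nonneg_right ?_ (hF0 g)
        exact_mod_cast D.card_fiber hC R i g
    _ ≤ _ := by
        rw [← mul_sum]
        refine mul_le_mul_of_nonneg_left ?_ (by positivity)
        have hset := FF.sum_T_le hl h0 h1 ((1 : Γ), o)
          ((U.image (D.join hC)).image fun g => (g, o)) (fun S => hX S _ _)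
        rwa [sum_image fun a _ b _ h => congrArg Prod.fst h] at hset

omit [Fintype κ] in
/-- Connections by finitely many displacements have probability bounded below. -/
theorem exists_delta [Fintype O] (hl : Labelling G nb) (hinv : FF.Inv G) (hc : G.Connected)
    (Cs : Finset Γ) {p0 : ℝ} (h0 : 0 < p0) (h01 : p0 ≤ 1) :
    ∃ δ : ℝ, 0 < δ ∧ δ ≤ 1 ∧ ∀ p, p0 ≤ p → p ≤ 1 → ∀ x y : Γ × O,
      x.1⁻¹ * y.1 ∈ Cs → δ ≤ FF.T nb p x y := by
  classical
  set P : Finset (O × (Γ × O)) := univ ×ˢ (Cs ×ˢ univ)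
  set f : O × (Γ × O) → ℝ := fun q => FF.T nb p0 (1, q.1) q.2
  have hf1 : ∀ q, f q ≤ 1 := fun q => FF.T_le_one h0.le h01 _ _
  have hf0 : ∀ q, 0 ≤ f q := fun q => FF.T_nonneg h0.le h01 _ _
  refine ⟨∏ q ∈ P, f q, prod_pos fun q _ => FF.T_pos hl hc h0 h01 _ _,
    prod_le_one (fun q _ => hf0 q) fun q _ => hf1 q, fun p hp hp1 x y hxy => ?_⟩
  have hmem : (x.2, (x.1⁻¹ * y.1, y.2)) ∈ P := by simp [P, hxy]
  calc ∏ q ∈ P, f q = f (x.2, (x.1⁻¹ * y.1, y.2)) * ∏ q ∈ P.erase (x.2, (x.1⁻¹ * y.1, y.2)), f q :=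
        (mul_prod_erase P f hmem).symm
    _ ≤ f (x.2, (x.1⁻¹ * y.1, y.2)) :=
        mul_le_of_le_one_right (hf0 _) (prod_le_one (fun q _ => hf0 q) fun q _ => hf1 q)
    _ ≤ FF.T nb p (1, x.2) (x.1⁻¹ * y.1, y.2) := FF.T_mono h0.le hp hp1 _ _
    _ = FF.T nb p x y := by
        rw [← FF.T_tr hl hinv x.1⁻¹ (h0.le.trans hp) hp1 x y]
        congr 1
        simp [FF.tr]

end TreeAct

end Vale.Agent.P165.TL
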