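import Vale.Agent.P165.TL.Paths
import Vale.Agent.P165.TL.ChainSum
import Vale.Agent.P165.FF.Kernel

/-!
# The exit kernel of a large cylinder is small, uniformly below the critical parameter
-/

namespace Vale.Agent.P165.TL

open Finset FF

variable {κ Γ : Type} [Group Γ] [Fintype κ] [DecidableEq Γ] (D : TreeAct κ Γ)
  {O ι : Type} [DecidableEq O] [Fintype O] [Fintype ι]
  {G : SimpleGraph (Γ × O)} {nb : Γ × O → ι → Γ × O}

namespace TreeAct

theorem len_step (hl : Labelling G nb) {L : ℕ}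
    (hL : ∀ x y : Γ × O, G.Adj x y → ∀ t, D.len t (x.1⁻¹ * y.1) ≤ L) (a : Γ × O) (i : ι)
    (t : κ) : D.len t (nb a i).1 ≤ D.len t a.1 + L := by
  have h := hL a (nb a i) (hl.adj_nb a i) t
  have h' := D.len_mul_le t a.1 (a.1⁻¹ * (nb a i).1)
  rw [mul_inv_cancel_left] at h'
  omega

theorem kernelB_nonneg {n : ℕ} {p : ℝ} (h0 : 0 ≤ p) (hp1 : p ≤ 1) (g : Γ) :
    0 ≤ D.kernelB nb n p g :=
  mul_nonneg h0 (sum_nonneg fun o _ => sum_nonneg fun a _ => sum_nonneg fun i _ => by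
    split_ifs
    · exact tauIn_nonneg _ h0 hp1 _ _
    · exact le_rfl)

theorem kernelB_le (hl : Labelling G nb) {L n : ℕ}
    (hL : ∀ x y : Γ × O, G.Adj x y → ∀ t, D.len t (x.1⁻¹ * y.1) ≤ L) {p M : ℝ} (h0 : 0 ≤ p)
    (hp1 : p ≤ 1) (hM0 : 0 ≤ M)
    (hmax : ∀ o, ∀ a ∈ (D.cyl n : Finset (Γ × O)), (∃ t, n < D.len t a.1 + L) →
      tauIn nb (D.cyl n) p (1, o) a ≤ M) (g : Γ) :
    D.kernelB nb n p g ≤ (Fintype.card O : ℝ) ^ 2 * (Fintype.card ι : ℝ) * M := by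
  classical
  set q : ℝ := (Fintype.card O : ℝ) with hq
  set d : ℝ := (Fintype.card ι : ℝ) with hd
  refine (mul_le_of_le_one_left (sum_nonneg fun o _ => sum_nonneg fun a _ => sum_nonneg
    fun i _ => by
      split_ifs
      · exact tauIn_nonneg _ h0 hp1 _ _
      · exact le_rfl) hp1).trans ?_
  have hone : ∀ o, (∑ a ∈ (D.cyl n : Finset (Γ × O)), ∑ i,
      if nb a i ∉ (D.cyl n : Finset (Γ × O)) ∧ (nb a i).1 = g then
        tauIn nb (D.cyl n) p (1, o) a else 0) ≤ q * d * M := by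
    intro o
    rw [← sum_product', ← sum_filter]
    refine (sum_le_card_nsmul _ _ M fun x hx => ?_).trans ?_
    · obtain ⟨hx1, hout, -⟩ := mem_filter.1 hx
      refine hmax o x.1 (mem_product.1 hx1).1 ?_
      rw [D.mem_cyl] at hout
      push Not at hout
      obtain ⟨t, ht⟩ := hout
      exact ⟨t, ht.trans_le (D.len_step hl hL x.1 x.2 t)⟩
    · rw [nsmul_eq_mul]
      refine mul_le_mul_of_nonneg_right ?_ hM0
      have hback : ∀ x : (Γ × O) × ι, ∃ i, nb (nb x.1 x.2) i = x.1 := fun x =>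
        (hl.adj _ _).1 (hl.adj_nb x.1 x.2).symm
      choose back hback using hback
      have hcard : (((D.cyl n : Finset (Γ × O)) ×ˢ (univ : Finset ι)).filter fun x =>
          nb x.1 x.2 ∉ (D.cyl n : Finset (Γ × O)) ∧ (nb x.1 x.2).1 = g).card
            ≤ (univ : Finset (O × ι)).card := by
        refine card_le_card_of_injOn (fun x => ((nb x.1 x.2).2, back x))
          (fun x _ => mem_univ _) fun x hx y hy hxy => ?_
        rw [mem_coe, mem_filter] at hx hy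
        obtain ⟨h2, h3⟩ := Prod.ext_iff.1 hxy
        simp only at h2 h3
        have e : nb x.1 x.2 = nb y.1 y.2 := Prod.ext (hx.2.2.trans hy.2.2.symm) h2
        have e1 : x.1 = y.1 := by rw [← hback x, ← hback y, e, h3]
        exact Prod.ext e1 (hl.inj y.1 (by rw [← e, e1]))
      rw [card_univ, Fintype.card_prod] at hcard
      exact (Nat.cast_le.2 hcard).trans_eq (by push_cast; rfl)
  refine (sum_le_card_nsmul _ _ _ fun o _ => hone o).trans_eq ?_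
  rw [card_univ, nsmul_eq_mul]
  ring

theorem kernelB_mass (hl : Labelling G nb) (hinv : Inv G) {C : Finset Γ} (hC : D.IsMarkers C)
    {L n : ℕ} {p δ X : ℝ} (h0 : 0 ≤ p) (hp1 : p ≤ 1) (hδ0 : 0 < δ)
    (hδ : ∀ x y : Γ × O, x.1⁻¹ * y.1 ∈ insert 1 C → δ ≤ T nb p x y)
    (hX : ∀ (S F : Finset (Γ × O)) (x : Γ × O), ∑ y ∈ F, tauIn nb S p x y ≤ X) :
    ∑ g ∈ D.ball (n + L), D.kernelB nb n p g ≤
      (C.card : ℝ) * ((Fintype.card O : ℝ) ^ 2 * (Fintype.card ι : ℝ) / δ ^ 2) *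
        ((n : ℝ) + 1) ^ Fintype.card κ := by
  classical
  set q : ℝ := (Fintype.card O : ℝ) with hq
  set d : ℝ := (Fintype.card ι : ℝ) with hd
  set m := Fintype.card κ
  set u : ℝ := (n : ℝ) + 1
  simp only [kernelB, ← mul_sum]
  refine (mul_le_of_le_one_left (sum_nonneg fun g _ => sum_nonneg fun o _ => sum_nonneg
    fun a _ => sum_nonneg fun i _ => by
      split_ifs
      · exact tauIn_nonneg _ h0 hp1 _ _
      · exact le_rfl) hp1).trans ?_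
  rw [sum_comm]
  refine (sum_le_card_nsmul _ _ ((C.card : ℝ) * (q * d / δ ^ 2) * u ^ m) fun o _ => ?_).trans_eq ?_
  · rw [sum_comm]
    calc ∑ a ∈ (D.cyl n : Finset (Γ × O)), ∑ g ∈ D.ball (n + L), ∑ i,
          (if nb a i ∉ (D.cyl n : Finset (Γ × O)) ∧ (nb a i).1 = g then
            tauIn nb (D.cyl n) p (1, o) a else 0)
        ≤ ∑ a ∈ (D.cyl n : Finset (Γ × O)), d * T nb p (1, o) a := by
          refine sum_le_sum fun a _ => ?_
          rw [sum_comm]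
          refine (sum_le_card_nsmul _ _ (T nb p (1, o) a) fun i _ => ?_).trans_eq
            (by rw [card_univ, nsmul_eq_mul])
          by_cases hb : nb a i ∉ (D.cyl n : Finset (Γ × O))
          · simp only [hb, not_false_eq_true, true_and, sum_ite_eq]
            split_ifs
            · exact le_T h0 hp1 _ _ _
            · exact T_nonneg h0 hp1 _ _
          · simp only [hb, false_and, if_false, sum_const_zero]
            exact T_nonneg h0 hp1 _ _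
      _ = d * ∑ o', ∑ γ ∈ D.ball n, T nb p (1, o) (γ, o') := by
          rw [← mul_sum, cyl, sum_product, sum_comm]
      _ ≤ d * (q * ((C.card : ℝ) * u ^ m / δ ^ 2)) := by
          refine mul_le_mul_of_nonneg_left ((sum_le_card_nsmul _ _ ((C.card : ℝ) * u ^ m / δ ^ 2)
            fun o' _ => ?_).trans_eq (by rw [card_univ, nsmul_eq_mul])) (Nat.cast_nonneg _)
          rw [le_div_iff₀ (by positivity), mul_comm]
          exact D.ball_sum hl hinv hC h0 hp1 hδ0.le hδ hX n o o'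
      _ = _ := by ring
  · rw [card_univ, nsmul_eq_mul]; ring

theorem rim_connection {L n : ℕ} (hL1 : 1 ≤ L) {p δ c C0 : ℝ} (h0 : 0 ≤ p) (hp1 : p ≤ 1)
    (hδ0 : 0 < δ) {K j N0 : ℕ} (hK : 1 ≤ K) (hc0 : 0 < c) (hC0 : 0 < C0)
    (hlog : ∀ x : ℕ, ((Nat.log 2 x + 1 : ℕ) : ℝ) ^ (2 * Fintype.card κ) ≤ C0 * ((x : ℝ) + 1))
    (hn' : 12 * L * (N0 + 2) ≤ n) (o : O) (a : Γ × O)
    (hpath : ∀ N, N0 ≤ N → 3 * L * (N + 1) ≤ n →
      c * (N : ℝ) ^ (2 * j) * tauIn nb (D.cyl n) p (1, o) a ≤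
        ∑ zs ∈ D.goodChains n (2 * j), chainVal nb (D.cyl n) p (1, o) zs a)
    (hchain : δ ^ (2 * j + 2) * ∑ zs ∈ D.goodChains n (2 * j), chainVal nb (D.cyl n) p (1, o) zs a ≤
      (K : ℝ) ^ (2 * j + 2) * ((K * (2 * j + 1) * (n + 1) : ℕ) : ℝ) ^ (3 * Fintype.card κ) *
        ((Nat.log 2 (K * (2 * j + 1) * (n + 1)) + 1 : ℕ) : ℝ) ^ (Fintype.card κ * (2 * j))) :
    tauIn nb (D.cyl n) p (1, o) a ≤
      (K : ℝ) ^ (2 * j + 2) * (C0 * (2 * (K : ℝ) * (((2 * j : ℕ) : ℝ) + 1))) ^ j *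
        (2 * (K : ℝ) * (((2 * j : ℕ) : ℝ) + 1)) ^ (3 * Fintype.card κ) *
          (8 * (L : ℝ)) ^ (2 * j) / (δ ^ (2 * j + 2) * c) *
        ((n : ℝ) + 1) ^ (3 * Fintype.card κ + j) / ((n : ℝ) + 1) ^ (2 * j) := by
  classical
  set m := Fintype.card κ
  set k := 2 * j with hk
  set A : ℝ := 2 * (K : ℝ) * ((k : ℝ) + 1) with hA
  set u : ℝ := (n : ℝ) + 1 with hu
  have hu1 : 1 ≤ u := le_add_of_nonneg_left (Nat.cast_nonneg n)
  have hu0 : 0 < u := one_pos.trans_le hu1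
  set N := n / (3 * L) - 1 with hN
  have hdiv : 4 * (N0 + 2) ≤ n / (3 * L) := by
    rw [Nat.le_div_iff_mul_le (by omega)]
    calc 4 * (N0 + 2) * (3 * L) = 12 * L * (N0 + 2) := by ring
      _ ≤ n := hn'
  have hNn : 3 * L * (N + 1) ≤ n := by
    rw [show N + 1 = n / (3 * L) by omega]; exact Nat.mul_div_le n _
  have hN' : n + 1 ≤ 8 * L * N := by
    have h1 := Nat.lt_mul_div_succ n (show 0 < 3 * L by omega)
    have h2 : 3 * L * (n / (3 * L) + 1) ≤ 3 * L * (2 * N) := Nat.mul_le_mul_left _ (by omega)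
    nlinarith
  have hNu : u ≤ 8 * (L : ℝ) * N := by
    have : ((n + 1 : ℕ) : ℝ) ≤ ((8 * L * N : ℕ) : ℝ) := Nat.cast_le.2 hN'
    push_cast at this
    exact this
  have hLpos : 0 < (L : ℝ) := by exact_mod_cast hL1
  have hN0' : 0 < (N : ℝ) := by
    by_contra hle
    push Not at hle
    nlinarith
  have h1 := hpath N (by omega) hNn
  set B := K * (k + 1) * (n + 1) with hB
  have hBu : (B : ℝ) + 1 ≤ A * u := by
    have hB1 : (1 : ℝ) ≤ (B : ℝ) := by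
      exact_mod_cast (show 1 ≤ B from Nat.mul_pos (Nat.mul_pos hK (Nat.succ_pos k)) (Nat.succ_pos n))
    calc (B : ℝ) + 1 ≤ 2 * (B : ℝ) := by linarith
      _ = A * u := by rw [hB, hA, hu]; push_cast; ring
  have hlg : ((Nat.log 2 B + 1 : ℕ) : ℝ) ^ (2 * m) ≤ C0 * (A * u) :=
    (hlog B).trans (mul_le_mul_of_nonneg_left hBu hC0.le)
  have hrhs : (K : ℝ) ^ (k + 2) * (B : ℝ) ^ (3 * m) * ((Nat.log 2 B + 1 : ℕ) : ℝ) ^ (m * k)
      ≤ (K : ℝ) ^ (k + 2) * ((C0 * A) ^ j * A ^ (3 * m)) * u ^ (3 * m + j) := by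
    have e1 : ((Nat.log 2 B + 1 : ℕ) : ℝ) ^ (m * k)
        = (((Nat.log 2 B + 1 : ℕ) : ℝ) ^ (2 * m)) ^ j := by
      rw [← pow_mul, hk]; congr 1; ring
    have e2 : (C0 * A) ^ j * A ^ (3 * m) * u ^ (3 * m + j)
        = (A * u) ^ (3 * m) * (C0 * (A * u)) ^ j := by
      simp only [mul_pow, pow_add]; ring
    rw [e1, mul_assoc, mul_assoc ((K : ℝ) ^ (k + 2)), e2]
    refine mul_le_mul_of_nonneg_left (mul_le_mul
      (pow_le_pow_left₀ (Nat.cast_nonneg B) (by linarith) _)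
      (pow_le_pow_left₀ (by positivity) hlg j) (by positivity) (by positivity)) (by positivity)
  have h3 : δ ^ (k + 2) * (c * (N : ℝ) ^ k * tauIn nb (D.cyl n) p (1, o) a)
      ≤ (K : ℝ) ^ (k + 2) * ((C0 * A) ^ j * A ^ (3 * m)) * u ^ (3 * m + j) :=
    ((mul_le_mul_of_nonneg_left h1 (by positivity)).trans hchain).trans hrhs
  have hτ := tauIn_nonneg (nb := nb) (D.cyl n) h0 hp1 ((1 : Γ), o) a
  have hk' : u ^ k ≤ (8 * (L : ℝ)) ^ k * (N : ℝ) ^ k := by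
    rw [← mul_pow]; exact pow_le_pow_left₀ hu0.le hNu k
  rw [le_div_iff₀ (by positivity), div_mul_eq_mul_div, le_div_iff₀ (by positivity)]
  calc tauIn nb (D.cyl n) p (1, o) a * u ^ k * (δ ^ (k + 2) * c)
      ≤ tauIn nb (D.cyl n) p (1, o) a * ((8 * (L : ℝ)) ^ k * (N : ℝ) ^ k) * (δ ^ (k + 2) * c) :=
        mul_le_mul_of_nonneg_right (mul_le_mul_of_nonneg_left hk' hτ) (by positivity)
    _ = δ ^ (k + 2) * (c * (N : ℝ) ^ k * tauIn nb (D.cyl n) p (1, o) a) * (8 * (L : ℝ)) ^ k := by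
        ring
    _ ≤ (K : ℝ) ^ (k + 2) * ((C0 * A) ^ j * A ^ (3 * m)) * u ^ (3 * m + j) *
          (8 * (L : ℝ)) ^ k := mul_le_mul_of_nonneg_right h3 (by positivity)
    _ = _ := by ring

theorem final_algebra (R L1 u q d C1 Cc δ : ℝ) (hu : u ≠ 0) (m : ℕ) :
    R ^ 2 * (L1 * u) ^ (4 * m) *
        (q ^ 2 * d * (C1 * u ^ (3 * m + (8 * m + 1)) / u ^ (2 * (8 * m + 1))) *
          (Cc * (q ^ 2 * d / δ ^ 2) * u ^ m))
      = R ^ 2 * L1 ^ (4 * m) * (q ^ 2 * d * C1) * (Cc * (q ^ 2 * d / δ ^ 2)) / u := by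
  have h : u ^ (4 * m) * (u ^ (3 * m + (8 * m + 1)) / u ^ (2 * (8 * m + 1))) * u ^ m = 1 / u := by
    rw [mul_div_assoc', div_mul_eq_mul_div, ← pow_add, ← pow_add,
      div_eq_div_iff (pow_ne_zero _ hu) hu, one_mul, ← pow_succ]
    congr 1
    ring
  calc R ^ 2 * (L1 * u) ^ (4 * m) *
        (q ^ 2 * d * (C1 * u ^ (3 * m + (8 * m + 1)) / u ^ (2 * (8 * m + 1))) *
          (Cc * (q ^ 2 * d / δ ^ 2) * u ^ m))
      = R ^ 2 * L1 ^ (4 * m) * (q ^ 2 * d * C1) * (Cc * (q ^ 2 * d / δ ^ 2)) *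
          (u ^ (4 * m) * (u ^ (3 * m + (8 * m + 1)) / u ^ (2 * (8 * m + 1))) * u ^ m) := by
        rw [mul_pow, mul_div_assoc C1]; ring
    _ = _ := by rw [h, ← mul_div_assoc, mul_one]

/-- A cylinder can be chosen so that the expected exit mass has small `ℓ²` norm. -/
theorem kernel_small (hl : Labelling G nb) (hinv : Inv G) (hc : G.Connected)
    {C : Finset Γ} (hC : D.IsMarkers C) {L : ℕ} (hL1 : 1 ≤ L)
    (hL : ∀ x y : Γ × O, G.Adj x y → ∀ t, D.len t (x.1⁻¹ * y.1) ≤ L) {p0 : ℝ} (hp0 : 0 < p0)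
    (hp01 : p0 ≤ 1) :
    ∃ n : ℕ, ∀ p, p0 ≤ p → p ≤ 1 →
      (∃ X : ℝ, ∀ (S F : Finset (Γ × O)) (x : Γ × O), ∑ y ∈ F, tauIn nb S p x y ≤ X) →
      (D.reps.card : ℝ) ^ 2 * ((n : ℝ) + L + 1) ^ (4 * Fintype.card κ) *
        ∑ g ∈ D.ball (n + L), D.kernelB nb n p g ^ 2 ≤ 1 / 8 := by
  classical
  obtain ⟨δ, hδ0, hδ1, hδ⟩ := TreeAct.exists_delta hl hinv hc (insert 1 C) hp0 hp01
  obtain ⟨K, hK1, hsum⟩ := D.chain_sum hl hinv hC
  set m := Fintype.card κ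
  set j := 8 * m + 1 with hj
  set k := 2 * j with hk
  obtain ⟨c, hc0, N0, hpath⟩ := D.path_count hl hL1 hL k
  obtain ⟨C0, hC0, hlog⟩ := log_pow_le (2 * m)
  set q : ℝ := (Fintype.card O : ℝ)
  set d : ℝ := (Fintype.card ι : ℝ)
  set A : ℝ := 2 * (K : ℝ) * ((k : ℝ) + 1) with hA
  set C1 : ℝ := (K : ℝ) ^ (k + 2) * (C0 * A) ^ j * A ^ (3 * m) * (8 * (L : ℝ)) ^ k /
    (δ ^ (k + 2) * c) with hC1
  set C2 : ℝ := (D.reps.card : ℝ) ^ 2 * ((L : ℝ) + 1) ^ (4 * m) * (q ^ 2 * d * C1) *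
    ((C.card : ℝ) * (q ^ 2 * d / δ ^ 2)) with hC2
  refine ⟨max (⌈8 * C2⌉₊) (12 * L * (N0 + 2)), fun p hp hp1 ⟨X, hX⟩ => ?_⟩
  set n := max (⌈8 * C2⌉₊) (12 * L * (N0 + 2)) with hn
  have hn' : 12 * L * (N0 + 2) ≤ n := le_max_right _ _
  have hnC : ⌈8 * C2⌉₊ ≤ n := le_max_left _ _
  clear_value n
  set u : ℝ := (n : ℝ) + 1 with hu
  have hu1 : 1 ≤ u := le_add_of_nonneg_left (Nat.cast_nonneg n)
  have hu0 : 0 < u := one_pos.trans_le hu1
  have h0 : 0 ≤ p := hp0.le.trans hp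
  have hC1nn : 0 ≤ C1 := by positivity
  set M : ℝ := C1 * u ^ (3 * m + j) / u ^ k with hM
  have hM0 : 0 ≤ M := by positivity
  have hmax : ∀ o, ∀ a ∈ (D.cyl n : Finset (Γ × O)), (∃ t, n < D.len t a.1 + L) →
      tauIn nb (D.cyl n) p (1, o) a ≤ M := fun o a ha hrim =>
    D.rim_connection hL1 h0 hp1 hδ0 hK1 hc0 hC0 hlog hn' o a
      (fun N hN hNn => hpath n N hN hNn p h0 hp1 o a ha hrim)
      (hsum p δ X h0 hp1 hδ0.le hδ1 (hδ p hp hp1) hX n k (by omega) o a ha)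
  have hBmax := D.kernelB_le hl hL h0 hp1 hM0 hmax
  have hBsum := D.kernelB_mass hl hinv hC (L := L) (n := n) h0 hp1 hδ0 (hδ p hp hp1) hX
  have hB0 := fun g => D.kernelB_nonneg (nb := nb) (n := n) h0 hp1 g
  have hsq : ∑ g ∈ D.ball (n + L), D.kernelB nb n p g ^ 2
      ≤ q ^ 2 * d * M * ((C.card : ℝ) * (q ^ 2 * d / δ ^ 2) * u ^ m) := by
    refine le_trans ?_ (mul_le_mul_of_nonneg_left hBsum (by positivity))
    rw [mul_sum]
    refine sum_le_sum fun g _ => ?_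
    rw [pow_two]
    exact mul_le_mul_of_nonneg_right (hBmax g) (hB0 g)
  have hR : (n : ℝ) + L + 1 ≤ ((L : ℝ) + 1) * u := by
    rw [hu]
    nlinarith [Nat.cast_nonneg (α := ℝ) n, Nat.cast_nonneg (α := ℝ) L]
  calc (D.reps.card : ℝ) ^ 2 * ((n : ℝ) + L + 1) ^ (4 * m) *
        ∑ g ∈ D.ball (n + L), D.kernelB nb n p g ^ 2
      ≤ (D.reps.card : ℝ) ^ 2 * (((L : ℝ) + 1) * u) ^ (4 * m) *
          (q ^ 2 * d * M * ((C.card : ℝ) * (q ^ 2 * d / δ ^ 2) * u ^ m)) :=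
        mul_le_mul (mul_le_mul_of_nonneg_left
          (pow_le_pow_left₀ (add_nonneg (add_nonneg (Nat.cast_nonneg n) (Nat.cast_nonneg L))
            zero_le_one) hR _) (sq_nonneg _)) hsq (sum_nonneg fun g _ => sq_nonneg _)
          (mul_nonneg (sq_nonneg _) (pow_nonneg (mul_nonneg (add_nonneg (Nat.cast_nonneg L)
            zero_le_one) hu0.le) _))
    _ = C2 / u := by
        rw [hC2, hM, hk, hj]
        exact final_algebra _ _ _ _ _ _ _ _ hu0.ne' m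
    _ ≤ 1 / 8 := by
        rw [div_le_iff₀ hu0]
        have h1 := Nat.le_ceil (8 * C2)
        have h2 : ((⌈8 * C2⌉₊ : ℕ) : ℝ) ≤ (n : ℝ) := Nat.cast_le.2 hnC
        simp only [hu]
        linarith

end TreeAct

end Vale.Agent.P165.TL
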