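import Vale.Agent.P165.TL.Setup

/-!
# Products of trees: markers

A corner is a vertex of the product with, in every coordinate, the neighbour it was entered from.
Non-backtracking steps connect any two orbits of corners: in a forward closed set of orbits each
vertex receives at most as many corners as it emits, and the totals agree, so a set containing
one of the corners entering a vertex contains all of them.
-/

namespace Vale.Agent.P165.TL

open Finset

namespace TreeAct

variable {κ Γ : Type} [Group Γ] (D : TreeAct κ Γ)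

/-- A pair of vertices in every coordinate: a vertex of the product and where it was entered
from. -/
abbrev Pairs : Type := ∀ t, D.V t × D.V t

/-- The action on pairs. -/
def sm (g : Γ) (p : D.Pairs) : D.Pairs := fun t => (D.act t g (p t).1, D.act t g (p t).2)

theorem sm_sm (g h : Γ) (p : D.Pairs) : D.sm g (D.sm h p) = D.sm (g * h) p := by
  funext t; simp only [sm, act_mul]

theorem sm_one (p : D.Pairs) : D.sm 1 p = p := by
  funext t; simp only [sm, act_one]

theorem sm_free {g : Γ} {p : D.Pairs} (h : D.sm g p = p) : g = 1 :=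
  D.free g (fun t => (p t).2) fun t => congrArg Prod.snd (congrFun h t)

/-- Translates of each other. -/
def orb : Setoid D.Pairs where
  r p q := ∃ g, D.sm g p = q
  iseqv :=
    ⟨fun p => ⟨1, D.sm_one p⟩,
      fun {p q} ⟨g, h⟩ => ⟨g⁻¹, by rw [← h, sm_sm, inv_mul_cancel, sm_one]⟩,
      fun {p q r} ⟨g, h⟩ ⟨g', h'⟩ => ⟨g' * g, by rw [← h', ← h, sm_sm]⟩⟩

/-- The chosen translate. -/
noncomputable def cn (p : D.Pairs) : D.Pairs := (Quotient.mk D.orb p).out

theorem exists_cn (p : D.Pairs) : ∃ g, D.sm g (D.cn p) = p :=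
  Quotient.mk_out (s := D.orb) p

theorem cn_sm (g : Γ) (p : D.Pairs) : D.cn (D.sm g p) = D.cn p := by
  rw [cn, cn]
  congr 1
  exact Quotient.sound (s := D.orb) ((D.orb).iseqv.symm ⟨g, rfl⟩)

theorem cn_cn (p : D.Pairs) : D.cn (D.cn p) = D.cn p := by
  obtain ⟨g, h⟩ := D.exists_cn p
  conv_rhs => rw [← h, cn_sm]

/-- A corner: every second vertex is entered from the first. -/
def IsCorner (p : D.Pairs) : Prop := ∀ t, (D.H t).Adj (p t).1 (p t).2

theorem isCorner_sm (g : Γ) (p : D.Pairs) : D.IsCorner (D.sm g p) ↔ D.IsCorner p :=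
  forall_congr' fun t => (D.φ t g).map_adj_iff

theorem isCorner_cn (p : D.Pairs) : D.IsCorner (D.cn p) ↔ D.IsCorner p := by
  obtain ⟨g, h⟩ := D.exists_cn p
  conv_rhs => rw [← h, isCorner_sm]

theorem finite_corners [Finite κ] : (D.cn '' {p | D.IsCorner p}).Finite := by
  refine (((D.reps.finite_toSet).biUnion (t := fun r => Set.univ.pi fun t =>
    (D.H t).neighborSet (r t) ×ˢ ({r t} : Set (D.V t))) fun r _ => Set.Finite.pi fun t =>
    ((D.nbhd t (r t)).prod (Set.finite_singleton (r t)))).image D.cn).subset ?_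
  rintro _ ⟨p, hp, rfl⟩
  obtain ⟨g, r, hr, hg⟩ := D.cover fun t => (p t).2
  refine ⟨D.sm g⁻¹ p, Set.mem_iUnion₂.2 ⟨r, hr, fun t _ => ?_⟩, D.cn_sm _ _⟩
  have e : D.act t g⁻¹ (p t).2 = r t := by
    rw [← hg t]; exact D.act_inv_act t g (r t)
  refine ⟨?_, e⟩
  have := ((D.φ t g⁻¹).map_adj_iff).2 (hp t)
  show (D.H t).Adj (r t) (D.act t g⁻¹ (p t).1)
  rw [← e]
  exact this.symm

variable [DecidableEq κ]

/-- Change one coordinate. -/
def set1 (p : D.Pairs) (t : κ) (v : D.V t × D.V t) : D.Pairs := Function.update p t v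

theorem sm_set1 (g : Γ) (p : D.Pairs) (t : κ) (v : D.V t × D.V t) :
    D.sm g (D.set1 p t v) = D.set1 (D.sm g p) t (D.act t g v.1, D.act t g v.2) := by
  funext s
  by_cases h : s = t
  · subst h; simp [set1, sm]
  · simp [set1, sm, Function.update_of_ne h]

theorem set1_same (p : D.Pairs) (t : κ) (v : D.V t × D.V t) : D.set1 p t v t = v :=
  Function.update_self ..

theorem set1_set1 (p : D.Pairs) (t : κ) (v w : D.V t × D.V t) :
    D.set1 (D.set1 p t v) t w = D.set1 p t w := Function.update_idem ..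

theorem set1_self (p : D.Pairs) (t : κ) : D.set1 p t (p t) = p := Function.update_eq_self ..

theorem isCorner_set1 {p : D.Pairs} (hp : D.IsCorner p) {t : κ} {v : D.V t × D.V t}
    (hv : (D.H t).Adj v.1 v.2) : D.IsCorner (D.set1 p t v) := fun s => by
  by_cases h : s = t
  · subst h; rwa [set1_same]
  · rw [set1, Function.update_of_ne h]; exact hp s

/-- A middle in coordinate `t`: a corner with the entry in coordinate `t` forgotten. -/
def IsMiddle (t : κ) (m : D.Pairs) : Prop :=
  (m t).1 = (m t).2 ∧ ∀ s, s ≠ t → (D.H s).Adj (m s).1 (m s).2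

omit [DecidableEq κ] in
theorem isMiddle_sm (t : κ) (g : Γ) (m : D.Pairs) : D.IsMiddle t (D.sm g m) ↔ D.IsMiddle t m :=
  and_congr ((D.φ t g).injective.eq_iff)
    (forall_congr' fun s => imp_congr_right fun _ => (D.φ s g).map_adj_iff)

variable [Finite κ]

theorem finite_middles (t : κ) : (D.cn '' {m | D.IsMiddle t m}).Finite := by
  refine (D.finite_corners.image fun k => D.cn (D.set1 k t ((k t).2, (k t).2))).subset ?_
  rintro _ ⟨m, ⟨h1, h2⟩, rfl⟩
  obtain ⟨z, hz⟩ : ((D.H t).neighborSet (m t).2).Nonempty := by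
    rw [← Set.ncard_pos (D.nbhd t _)]
    have := D.deg t (m t).2
    omega
  set k := D.set1 m t (z, (m t).2) with hk
  have hkc : D.IsCorner k := fun s => by
    by_cases h : s = t
    · subst h; rw [hk, set1_same]; exact hz.symm
    · rw [hk, set1, Function.update_of_ne h]; exact h2 s h
  refine ⟨D.cn k, ⟨k, hkc, rfl⟩, ?_⟩
  obtain ⟨g, hg⟩ := D.exists_cn k
  show D.cn (D.set1 (D.cn k) t ((D.cn k t).2, (D.cn k t).2)) = D.cn m
  have e : D.sm g (D.set1 (D.cn k) t ((D.cn k t).2, (D.cn k t).2)) = m := by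
    rw [sm_set1, hg]
    have : D.act t g (D.cn k t).2 = (m t).2 := by
      have := congrArg Prod.snd (congrFun hg t)
      rw [hk, set1_same] at this
      exact this
    rw [this, hk, set1_set1]
    conv_rhs => rw [← D.set1_self m t]
    rw [show m t = ((m t).2, (m t).2) from Prod.ext h1 rfl]
  rw [← e, cn_sm]

/-- The corners, counted once per orbit, are counted by middles and neighbours. -/
theorem count_corners (F : D.Pairs → Prop) [DecidablePred F] (hF : ∀ g p, F (D.sm g p) ↔ F p)
    (t : κ) (sel : D.Pairs → D.V t → D.Pairs) (mid : D.Pairs → D.Pairs)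
    (zof : D.Pairs → D.V t) (hmid : ∀ g k, mid (D.sm g k) = D.sm g (mid k))
    (hsel : ∀ g m z, D.sm g (sel m z) = sel (D.sm g m) (D.act t g z))
    (hms : ∀ m z, D.IsMiddle t m → mid (sel m z) = m)
    (hzs : ∀ m z, zof (sel m z) = z)
    (hcor : ∀ m z, D.IsMiddle t m → (D.H t).Adj (m t).2 z → D.IsCorner (sel m z))
    (hinv : ∀ k, D.IsCorner k → sel (mid k) (zof k) = k ∧ D.IsMiddle t (mid k) ∧
      (D.H t).Adj (mid k t).2 (zof k)) :
    (D.finite_corners.toFinset.filter F).card = ∑ m ∈ (D.finite_middles t).toFinset,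
      ((D.nbhd t (m t).2).toFinset.filter fun z => F (sel m z)).card := by
  classical
  rw [← card_sigma]
  refine (card_bij (fun q _ => D.cn (sel q.1 q.2)) ?_ ?_ ?_).symm
  · intro q hq
    obtain ⟨hq1, hq2⟩ := mem_sigma.1 hq
    obtain ⟨m, hm, e⟩ := (Set.Finite.mem_toFinset _).1 hq1
    obtain ⟨g, hg⟩ := D.exists_cn m
    have hmq : D.IsMiddle t q.1 := by rw [← e, ← D.isMiddle_sm t g, hg]; exact hm
    obtain ⟨hz, hFz⟩ := mem_filter.1 hq2
    refine mem_filter.2 ⟨(Set.Finite.mem_toFinset _).2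
      ⟨_, hcor _ _ hmq ((Set.Finite.mem_toFinset _).1 hz), rfl⟩, ?_⟩
    obtain ⟨g', hg'⟩ := D.exists_cn (sel q.1 q.2)
    rw [← hF g', hg']
    exact hFz
  · rintro ⟨m, z⟩ hq ⟨m', z'⟩ hq' e
    obtain ⟨m₀, hm₀, em⟩ := (Set.Finite.mem_toFinset _).1 (mem_sigma.1 hq).1
    obtain ⟨m₁, hm₁, em'⟩ := (Set.Finite.mem_toFinset _).1 (mem_sigma.1 hq').1
    dsimp only at e em em'
    have hmm : D.IsMiddle t m := by
      obtain ⟨g, hg⟩ := D.exists_cn m₀
      rw [← em, ← D.isMiddle_sm t g, hg]; exact hm₀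
    have hmm' : D.IsMiddle t m' := by
      obtain ⟨g, hg⟩ := D.exists_cn m₁
      rw [← em', ← D.isMiddle_sm t g, hg]; exact hm₁
    obtain ⟨g, hg⟩ := D.exists_cn (sel m z)
    obtain ⟨g', hg'⟩ := D.exists_cn (sel m' z')
    rw [e] at hg
    have hh : D.sm (g * g'⁻¹) (sel m' z') = sel m z := by
      conv_lhs => rw [← hg', sm_sm, inv_mul_cancel_right]
      exact hg
    have hm2 : D.sm (g * g'⁻¹) m' = m := by rw [← hms m' z' hmm', ← hmid, hh, hms m z hmm]
    have hm3 : m' = m := by
      rw [← em, ← em']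
      have := congrArg D.cn hm2
      rw [cn_sm, ← em, ← em', cn_cn, cn_cn] at this
      exact this
    subst hm3
    rw [D.sm_free hm2, sm_one] at hh
    have : z' = z := by rw [← hzs m' z', hh, hzs]
    rw [this]
  · intro k hk
    obtain ⟨hk1, hk2⟩ := mem_filter.1 hk
    obtain ⟨k₀, hk₀, ek⟩ := (Set.Finite.mem_toFinset _).1 hk1
    obtain ⟨he, hmk, hadj⟩ := hinv k (ek ▸ (D.isCorner_cn k₀).2 hk₀)
    obtain ⟨g, hg⟩ := D.exists_cn (mid k)
    have hs : D.sm g (sel (D.cn (mid k)) (D.act t g⁻¹ (zof k))) = k := by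
      rw [hsel, hg, ← act_mul, mul_inv_cancel, act_one, he]
    refine ⟨⟨D.cn (mid k), D.act t g⁻¹ (zof k)⟩, mem_sigma.2 ⟨(Set.Finite.mem_toFinset _).2
      ⟨_, hmk, rfl⟩, mem_filter.2 ⟨(Set.Finite.mem_toFinset _).2 ?_, ?_⟩⟩, ?_⟩
    · have h2 := congrArg Prod.snd (congrFun hg t)
      have := ((D.φ t g).map_adj_iff (v := (D.cn (mid k) t).2) (w := D.act t g⁻¹ (zof k))).1 (by
        show (D.H t).Adj (D.sm g (D.cn (mid k)) t).2 (D.act t g (D.act t g⁻¹ (zof k)))
        rw [hg, ← act_mul, mul_inv_cancel, act_one]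
        exact hadj)
      exact this
    · rw [← hF g, hs]; exact hk2
    · show D.cn (sel (D.cn (mid k)) (D.act t g⁻¹ (zof k))) = k
      rw [← D.cn_sm g, hs, ← ek, cn_cn]

/-- One non-backtracking step. -/
def Step (p q : D.Pairs) : Prop :=
  ∃ t z, (D.H t).Adj (p t).2 z ∧ z ≠ (p t).1 ∧ q = D.set1 p t ((p t).2, z)

omit [Finite κ] in
theorem step_sm (g : Γ) {p q : D.Pairs} (h : D.Step p q) : D.Step (D.sm g p) (D.sm g q) := by
  obtain ⟨t, z, h1, h2, rfl⟩ := h
  exact ⟨t, D.act t g z, ((D.φ t g).map_adj_iff).2 h1, fun e => h2 ((D.φ t g).injective e),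
    D.sm_set1 g p t _⟩

/-- Forward closed invariant sets of corners do not see where a vertex was entered from. -/
theorem turn {F : D.Pairs → Prop} (hF : ∀ g p, F (D.sm g p) ↔ F p)
    (hstep : ∀ p q, D.IsCorner p → F p → D.Step p q → F q) {p : D.Pairs} (hc : D.IsCorner p)
    (hp : F p) (t : κ) {y : D.V t} (hy : (D.H t).Adj (p t).2 y) :
    F (D.set1 p t (y, (p t).2)) := by
  classical
  set cin : D.Pairs → D.V t → D.Pairs := fun m z => D.set1 m t (z, (m t).2) with hcin
  set cout : D.Pairs → D.V t → D.Pairs := fun m z => D.set1 m t ((m t).2, z) with hcout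
  have hmidc : ∀ (k : D.Pairs) (v : D.V t), D.IsCorner k → D.IsMiddle t (D.set1 k t (v, v)) :=
    fun k v hk => ⟨by rw [set1_same], fun s hs => by
      rw [set1, Function.update_of_ne hs]; exact hk s⟩
  have hcc : ∀ (m : D.Pairs) (v : D.V t × D.V t), D.IsMiddle t m → (D.H t).Adj v.1 v.2 →
      D.IsCorner (D.set1 m t v) := fun m v hm hv s => by
    by_cases h : s = t
    · subst h; rw [set1_same]; exact hv
    · rw [set1, Function.update_of_ne h]; exact hm.2 s h
  have hms : ∀ (m : D.Pairs) (v : D.V t × D.V t), D.IsMiddle t m →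
      D.set1 (D.set1 m t v) t ((m t).2, (m t).2) = m := fun m v hm => by
    rw [set1_set1]
    conv_rhs => rw [← D.set1_self m t]
    rw [show m t = ((m t).2, (m t).2) from Prod.ext hm.1 rfl]
  have ein := D.count_corners F hF t cin (fun k => D.set1 k t ((k t).2, (k t).2))
    (fun k => (k t).1) (fun g k => (D.sm_set1 g k t ((k t).2, (k t).2)).symm)
    (fun g m z => D.sm_set1 g m t _)
    (fun m z hm => by simp only [hcin, set1_same]; exact hms m _ hm)
    (fun m z => by simp only [hcin, set1_same])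
    (fun m z hm hz => hcc m _ hm hz.symm)
    (fun k hk => ⟨by simp only [hcin, set1_same, set1_set1]; exact D.set1_self k t, hmidc k _ hk,
      by rw [set1_same]; exact (hk t).symm⟩)
  have eout := D.count_corners F hF t cout (fun k => D.set1 k t ((k t).1, (k t).1))
    (fun k => (k t).2) (fun g k => (D.sm_set1 g k t ((k t).1, (k t).1)).symm)
    (fun g m z => D.sm_set1 g m t _)
    (fun m z hm => by simp only [hcout, set1_same]; exact hms m _ hm)
    (fun m z => by simp only [hcout, set1_same])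
    (fun m z hm hz => hcc m _ hm hz)
    (fun k hk => ⟨by simp only [hcout, set1_same, set1_set1]; exact D.set1_self k t, hmidc k _ hk,
      by rw [set1_same]; exact hk t⟩)
  set N : D.Pairs → Finset (D.V t) := fun m => (D.nbhd t (m t).2).toFinset with hN
  have out : ∀ m, D.IsMiddle t m → ∀ z ∈ N m, F (cin m z) → ∀ z' ∈ N m, z' ≠ z → F (cout m z') := by
    intro m hm z hz hFz z' hz' hne
    refine hstep _ _ (hcc m _ hm ((Set.Finite.mem_toFinset _).1 hz).symm) hFz ⟨t, z', ?_, ?_, ?_⟩
    · simp only [set1_same]; exact (Set.Finite.mem_toFinset _).1 hz'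
    · simp only [set1_same]; exact hne
    · simp only [hcout, set1_same, set1_set1]
  have hdeg : ∀ m, 3 ≤ (N m).card := fun m => by
    rw [hN, ← Set.ncard_eq_toFinset_card _ (D.nbhd t _)]; exact D.deg t _
  have hall : ∀ m, D.IsMiddle t m → 2 ≤ ((N m).filter fun z => F (cin m z)).card →
      (N m).filter (fun z => F (cout m z)) = N m := by
    intro m hm h2
    refine filter_true_of_mem fun z' hz' => ?_
    obtain ⟨a, ha, b, hb, hab⟩ := one_lt_card.1 h2
    by_cases hz : z' = a
    · exact out m hm b (mem_filter.1 hb).1 (mem_filter.1 hb).2 z' hz' (hz ▸ hab)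
    · exact out m hm a (mem_filter.1 ha).1 (mem_filter.1 ha).2 z' hz' hz
  have hone : ∀ m, D.IsMiddle t m → ∀ z ∈ N m, F (cin m z) →
      (N m).card ≤ ((N m).filter fun z => F (cout m z)).card + 1 := fun m hm z hz hFz => by
    refine (card_le_card fun z' hz' => ?_ : (N m).card ≤
      (insert z ((N m).filter fun z => F (cout m z))).card).trans (card_insert_le _ _)
    by_cases hne : z' = z
    · exact mem_insert.2 (Or.inl hne)
    · exact mem_insert_of_mem (mem_filter.2 ⟨hz', out m hm z hz hFz z' hz' hne⟩)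
  have hle : ∀ m ∈ (D.finite_middles t).toFinset,
      ((N m).filter fun z => F (cin m z)).card ≤ ((N m).filter fun z => F (cout m z)).card := by
    intro m hm
    obtain ⟨m₀, hm₀, e⟩ := (Set.Finite.mem_toFinset _).1 hm
    obtain ⟨g, hg⟩ := D.exists_cn m₀
    have hmm : D.IsMiddle t m := by rw [← e, ← D.isMiddle_sm t g, hg]; exact hm₀
    rcases lt_trichotomy ((N m).filter fun z => F (cin m z)).card 1 with h | h | h
    · omega
    · obtain ⟨z, hz⟩ := card_eq_one.1 h
      have hz' := mem_filter.1 (hz ▸ mem_singleton_self z : z ∈ (N m).filter fun z => F (cin m z))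
      have := hone m hmm z hz'.1 hz'.2
      have := hdeg m
      omega
    · rw [hall m hmm h]; exact card_le_card (filter_subset _ _)
  have heq := (sum_eq_sum_iff_of_le hle).1 (ein.symm.trans eout)
  obtain ⟨g, hg⟩ := D.exists_cn (D.set1 p t ((p t).2, (p t).2))
  set m := D.cn (D.set1 p t ((p t).2, (p t).2)) with hm
  have hmm : D.IsMiddle t m := by
    rw [← D.isMiddle_sm t g, hg]; exact hmidc p _ hc
  have hmem : m ∈ (D.finite_middles t).toFinset :=
    (Set.Finite.mem_toFinset _).2 ⟨_, hmidc p _ hc, rfl⟩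
  have hx : D.act t g (m t).2 = (p t).2 := by
    have h := congrArg Prod.snd (congrFun hg t)
    rw [set1_same] at h
    exact h
  have key : ∀ v : D.V t, (D.H t).Adj (p t).2 v → ∃ z ∈ N m,
      D.sm g (cin m z) = D.set1 p t (v, (p t).2) := fun v hv => by
    refine ⟨D.act t g⁻¹ v, (Set.Finite.mem_toFinset _).2
      (((D.φ t g).map_adj_iff (v := (m t).2) (w := D.act t g⁻¹ v)).1 ?_), ?_⟩
    · show (D.H t).Adj (D.act t g (m t).2) (D.act t g (D.act t g⁻¹ v))
      rw [← act_mul, mul_inv_cancel, act_one, hx]; exact hv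
    · rw [hcin, sm_set1, hg, set1_set1]
      dsimp only
      rw [← act_mul, mul_inv_cancel, act_one, hx]
  obtain ⟨z₀, hz₀, e₀⟩ := key (p t).1 (hc t).symm
  have hF₀ : F (cin m z₀) := by
    rw [← hF g, e₀, show ((p t).1, (p t).2) = p t from rfl, set1_self]; exact hp
  obtain ⟨z, hz, e⟩ := key y hy
  have hpos : 0 < ((N m).filter fun z => F (cin m z)).card :=
    card_pos.2 ⟨z₀, mem_filter.2 ⟨hz₀, hF₀⟩⟩
  have h2 : 2 ≤ ((N m).filter fun z => F (cin m z)).card := by
    have := hone m hmm z₀ hz₀ hF₀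
    have := hdeg m
    have := heq m hmem
    omega
  have hfull : (N m).filter (fun z => F (cin m z)) = N m :=
    eq_of_subset_of_card_le (filter_subset _ _) (by rw [heq m hmem, hall m hmm h2])
  rw [← e, hF]
  exact (mem_filter.1 (hfull.symm ▸ hz : z ∈ (N m).filter fun z => F (cin m z))).2

/-- A nonempty forward closed invariant set of corners contains all corners. -/
theorem all_corners {F : D.Pairs → Prop} (hF : ∀ g p, F (D.sm g p) ↔ F p)
    (hstep : ∀ p q, D.IsCorner p → F p → D.Step p q → F q) {p : D.Pairs} (hc : D.IsCorner p)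
    (hp : F p) {q : D.Pairs} (hq : D.IsCorner q) : F q := by
  classical
  have move : ∀ (t : κ) (x z : D.V t) (w : (D.H t).Walk x z) (r : D.Pairs), D.IsCorner r → F r →
      (r t).2 = x → ∀ y, (D.H t).Adj z y → F (D.set1 r t (y, z)) := by
    intro t x z w
    induction w with
    | nil =>
      intro r hr hFr hx y hy
      rw [← hx] at hy ⊢
      exact D.turn hF hstep hr hFr t hy
    | @cons x x' z hadj _ ih =>
      intro r hr hFr hx y hy
      obtain ⟨y', hy', hne⟩ := Set.exists_ne_of_one_lt_ncard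
        (show 1 < ((D.H t).neighborSet x).ncard by have := D.deg t x; omega) x'
      have hy' : (D.H t).Adj x y' := hy'
      have h1 := D.turn hF hstep hr hFr t (hx ▸ hy')
      have hr1 : D.IsCorner (D.set1 r t (y', (r t).2)) := D.isCorner_set1 hr (hx ▸ hy'.symm)
      have h2 : F (D.set1 r t (x, x')) := hstep _ _ hr1 h1
        ⟨t, x', by rw [set1_same, hx]; exact hadj, by rw [set1_same]; exact hne.symm,
          by rw [set1_same, set1_set1, hx]⟩
      have := ih _ (D.isCorner_set1 hr hadj) h2 (by rw [set1_same]) y hy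
      rwa [set1_set1] at this
  have : Fintype κ := Fintype.ofFinite κ
  suffices h : ∀ s : Finset κ, ∃ r, D.IsCorner r ∧ F r ∧ ∀ t ∈ s, r t = q t by
    obtain ⟨r, -, hr, hrq⟩ := h univ
    rwa [show q = r from funext fun t => (hrq t (mem_univ t)).symm]
  intro s
  induction s using Finset.induction_on with
  | empty => exact ⟨p, hc, hp, fun t ht => absurd ht (notMem_empty t)⟩
  | @insert t s hts ih =>
    obtain ⟨r, hr, hFr, hrq⟩ := ih
    obtain ⟨w⟩ := (D.tree t).connected.preconnected (r t).2 (q t).2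
    refine ⟨D.set1 r t (q t), D.isCorner_set1 hr (hq t),
      move t _ _ w r hr hFr rfl (q t).1 (hq t).symm, fun u hu => ?_⟩
    by_cases h : u = t
    · subst h; exact D.set1_same ..
    · rw [set1, Function.update_of_ne h]
      exact hrq u ((mem_insert.1 hu).resolve_left h)

omit [DecidableEq κ] in
/-- A group element leaving the base vertex along `e` and coming back along `e'`. -/
theorem exists_marker (e e' : ∀ t, D.V t) (he : ∀ t, (D.H t).Adj (D.o t) (e t))
    (he' : ∀ t, (D.H t).Adj (D.o t) (e' t)) :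
    ∃ c : Γ, ∀ t, 1 ≤ D.len t c ∧ D.dir c t = e t ∧ D.dir c⁻¹ t = e' t := by
  classical
  set Reach := Relation.ReflTransGen D.Step
  set k0 : D.Pairs := fun t => (D.o t, e t)
  set Good : D.Pairs → Prop := fun p => ∀ t, 1 ≤ (D.H t).dist (D.o t) (p t).2 ∧
    (D.H t).dist (D.o t) (p t).1 + 1 = (D.H t).dist (D.o t) (p t).2 ∧
    (D.H t).Adj (p t).1 (p t).2 ∧ pt (D.H t) (D.o t) (p t).2 1 = e t
  have hgood : ∀ p, Reach k0 p → Good p := by
    intro p hp
    induction hp with
    | refl =>
      intro t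
      have h1 : (D.H t).dist (D.o t) (e t) = 1 := SimpleGraph.dist_eq_one_iff_adj.2 (he t)
      refine ⟨h1.ge, by simp [k0, h1], he t, ?_⟩
      have h2 := pt_dist (D.tree t) (D.o t) (e t)
      rwa [h1] at h2
    | @tail r q _ hrq ih =>
      obtain ⟨t, z, h1, h2, rfl⟩ := hrq
      intro s
      by_cases hst : s = t
      swap
      · simp only [set1, Function.update_of_ne hst]; exact ih s
      subst hst
      obtain ⟨i1, i2, i3, i4⟩ := ih s
      rw [set1_same]
      set x := (r s).2
      set y := (r s).1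
      have hT := D.tree s
      have hyx : (D.H s).dist y x = 1 := SimpleGraph.dist_eq_one_iff_adj.2 i3
      have hxz : (D.H s).dist x z = 1 := SimpleGraph.dist_eq_one_iff_adj.2 h1
      have hback : pt (D.H s) x (D.o s) 1 = y := by
        have h := eq_pt_of_between hT (u := x) (v := D.o s) (x := y) (by
          rw [SimpleGraph.dist_comm (u := x) (v := y), SimpleGraph.dist_comm (u := x) (v := D.o s),
            SimpleGraph.dist_comm (u := y) (v := D.o s)]
          omega)
        rwa [SimpleGraph.dist_comm, hyx] at h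
      have hfwd : pt (D.H s) x z 1 = z := by
        have h := pt_dist hT x z
        rwa [hxz] at h
      have hd := dist_of_ne hT (u := x) (a := D.o s) (b := z)
        (Or.inr (Or.inr (by rw [hback, hfwd]; exact fun h => h2 h.symm)))
      rw [hxz] at hd
      exact ⟨by dsimp only; omega, hd, h1, ((pt_of_between hT (u := D.o s) (v := z) (x := x)
        (by rw [hxz]; exact hd) 1).1 i1).trans i4⟩
  set F : D.Pairs → Prop := fun p => ∃ g, Reach k0 (D.sm g p)
  have hF : ∀ g p, F (D.sm g p) ↔ F p := fun g p =>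
    ⟨fun ⟨h, hh⟩ => ⟨h * g, by rwa [sm_sm] at hh⟩,
      fun ⟨h, hh⟩ => ⟨h * g⁻¹, by rwa [sm_sm, inv_mul_cancel_right]⟩⟩
  obtain ⟨c, hc⟩ : F fun t => (e' t, D.o t) :=
    D.all_corners hF (fun p q _ ⟨g, hg⟩ hpq => ⟨g, hg.tail (D.step_sm g hpq)⟩) (p := k0) he
      ⟨1, by rw [sm_one]⟩ fun t => (he' t).symm
  refine ⟨c, fun t => ?_⟩
  obtain ⟨g1, g2, g3, g4⟩ := hgood _ hc t
  simp only [sm] at g1 g2 g3 g4
  refine ⟨g1, g4, ?_⟩
  have hT := D.tree t
  set X := D.act t c (D.o t)
  set Y := D.act t c (e' t)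
  have hYX : (D.H t).dist Y X = 1 := SimpleGraph.dist_eq_one_iff_adj.2 g3
  have hXY : pt (D.H t) X (D.o t) 1 = Y := by
    have h := eq_pt_of_between hT (u := X) (v := D.o t) (x := Y) (by
      rw [SimpleGraph.dist_comm (u := X) (v := Y), SimpleGraph.dist_comm (u := X) (v := D.o t),
        SimpleGraph.dist_comm (u := Y) (v := D.o t)]
      omega)
    rwa [SimpleGraph.dist_comm, hYX] at h
  have h := D.pt_act t c⁻¹ X (D.o t) 1
  rw [D.act_inv_act, hXY, D.act_inv_act] at h
  exact h

omit [DecidableEq κ] in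
/-- There are finitely many markers realising all constraints. -/
theorem exists_markers : ∃ C : Finset Γ, D.IsMarkers C := by
  classical
  have : Fintype κ := Fintype.ofFinite κ
  set N : ∀ t, Finset (D.V t) := fun t => (D.nbhd t (D.o t)).toFinset with hN
  set P := Fintype.piFinset N ×ˢ Fintype.piFinset N
  have hP : ∀ q ∈ P, ∃ c : Γ, ∀ t, 1 ≤ D.len t c ∧ D.dir c t = q.1 t ∧ D.dir c⁻¹ t = q.2 t :=
    fun q hq => D.exists_marker q.1 q.2
      (fun t => (Set.Finite.mem_toFinset _).1 (Fintype.mem_piFinset.1 (mem_product.1 hq).1 t))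
      fun t => (Set.Finite.mem_toFinset _).1 (Fintype.mem_piFinset.1 (mem_product.1 hq).2 t)
  choose f hf using hP
  refine ⟨P.attach.image fun q => f q.1 q.2, fun a a' b => ?_⟩
  have pick : ∀ (t : κ) (u v : D.V t), ∃ z ∈ N t, z ≠ u ∧ z ≠ v := fun t u v => by
    have h : 2 < (N t).card := by
      rw [hN, ← Set.ncard_eq_toFinset_card _ (D.nbhd t _)]; exact D.deg t _
    have h' : ({u, v} : Finset (D.V t)).card < (N t).card :=
      lt_of_le_of_lt ((card_insert_le _ _).trans (by simp)) h
    obtain ⟨z, hz, hne⟩ := exists_mem_notMem_of_card_lt_card h'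
    simp only [mem_insert, mem_singleton, not_or] at hne
    exact ⟨z, hz, hne⟩
  choose e he he1 he2 using fun t => pick t (a t) (a' t)
  choose e' he' he1' he2' using fun t => pick t (b t) (e t)
  have hq : (e, e') ∈ P :=
    mem_product.2 ⟨Fintype.mem_piFinset.2 he, Fintype.mem_piFinset.2 he'⟩
  refine ⟨f (e, e') hq, mem_image.2 ⟨⟨_, hq⟩, mem_attach _ _, rfl⟩, fun t => ?_⟩
  obtain ⟨h1, h2, h3⟩ := hf (e, e') hq t
  rw [h2, h3]
  exact ⟨h1, he1 t, he2 t, he1' t, (he2' t).symm⟩

end TreeAct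

end Vale.Agent.P165.TL
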