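import Vale.Agent.P165.FF.Transport
import Vale.Agent.P165.FF.Unique
import Vale.Agent.P165.FF.Main
import Vale.Agent.P165.TL.Recursion
import Vale.Agent.P165.TL.Markers
import Vale.Agent.P165.TL.Kernel

/-!
# Cocompact lattices in products of trees have a nonuniqueness phase
-/

namespace Vale.Agent.P165.TL

open Finset MeasureTheory ProbabilityTheory FF

namespace TreeAct

variable {κ Γ : Type} [Group Γ]

/-- A group acting cofinitely on a product of trees of degree at least three is infinite. -/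
theorem infinite_group (D : TreeAct κ Γ) [Nonempty κ] : Infinite Γ := by
  classical
  by_contra hfin
  rw [not_infinite_iff_finite] at hfin
  have : Finite (∀ t, D.V t) := by
    refine Finite.of_surjective (fun q : Γ × D.reps => fun t => D.act t q.1 ((q.2 : ∀ t, D.V t) t))
      fun x => ?_
    obtain ⟨g, r, hr, h⟩ := D.cover x
    exact ⟨(g, ⟨r, hr⟩), funext h⟩
  obtain ⟨t⟩ := ‹Nonempty κ›
  have : Finite (D.V t) :=
    Finite.of_surjective (fun x : ∀ t, D.V t => x t) fun v => ⟨Function.update D.o t v, by simp⟩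
  have := Fintype.ofFinite (D.V t)
  obtain ⟨y, hy⟩ : ((D.H t).neighborSet (D.o t)).Nonempty :=
    Set.nonempty_of_ncard_ne_zero (by have := D.deg t (D.o t); omega)
  have : Nontrivial (D.V t) := ⟨⟨D.o t, y, (show (D.H t).Adj (D.o t) y from hy).ne⟩⟩
  obtain ⟨v, hv⟩ := (D.tree t).exists_vert_degree_one_of_nontrivial
  have h := D.deg t v
  rw [← SimpleGraph.coe_neighborFinset, Set.ncard_coe_finset,
    SimpleGraph.card_neighborFinset_eq_degree, hv] at h
  omega

variable [Fintype κ] [DecidableEq Γ] {O ι : Type} [DecidableEq O] [Fintype O] [Fintype ι]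
  {G : SimpleGraph (Γ × O)} {nb : Γ × O → ι → Γ × O}

omit [DecidableEq Γ] [DecidableEq O] in
/-- Edges have bounded displacement. -/
theorem exists_len_step (D : TreeAct κ Γ) (hl : Labelling G nb) (hinv : Inv G) :
    ∃ L : ℕ, 1 ≤ L ∧ ∀ x y : Γ × O, G.Adj x y → ∀ t, D.len t (x.1⁻¹ * y.1) ≤ L := by
  refine ⟨1 + ∑ o : O, ∑ j : ι, ∑ t, D.len t (nb (1, o) j).1, by omega, fun x y h t => ?_⟩
  have h' := (hinv x.1⁻¹ x y).2 h
  have e : tr x.1⁻¹ x = ((1 : Γ), x.2) := by simp [tr]
  rw [e] at h'
  obtain ⟨j, hj⟩ := (hl.adj _ _).1 h'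
  have e2 : (nb (1, x.2) j).1 = x.1⁻¹ * y.1 := by rw [hj]; rfl
  rw [← e2]
  have h1 := single_le_sum (f := fun t => D.len t (nb (1, x.2) j).1) (fun _ _ => Nat.zero_le _)
    (mem_univ t)
  have h2 := single_le_sum (f := fun j => ∑ t, D.len t (nb (1, x.2) j).1) (fun _ _ => Nat.zero_le _)
    (mem_univ j)
  have h3 := single_le_sum (f := fun o => ∑ j, ∑ t, D.len t (nb (1, o) j).1)
    (fun _ _ => Nat.zero_le _) (mem_univ x.2)
  omega

theorem continuous_kernelB (D : TreeAct κ Γ) (n : ℕ) (g : Γ) :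
    Continuous fun p : ℝ => D.kernelB nb n p g := by
  refine continuous_id.mul (continuous_finsetSum _ fun o _ => continuous_finsetSum _ fun a _ =>
    continuous_finsetSum _ fun j _ => ?_)
  split_ifs
  · exact tauIn_continuous _ _ _
  · exact continuous_const

/-- A connected invariant regular graph on finitely many copies of a group acting freely and
cofinitely on a product of trees has a nonuniqueness phase. -/
theorem pc_lt_pu_invariant (D : TreeAct κ Γ) (hl : Labelling G nb) (hinv : Inv G)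
    (hc : G.Connected) [Nonempty κ] [Nonempty O] : pc G < pu G := by
  classical
  have : Infinite Γ := D.infinite_group
  have hinf : Infinite (Γ × O) := Prod.infinite_of_left
  have : Countable (Γ × O) := countable_of_connected hl.listing hc
  obtain ⟨L, hL1, hL⟩ := D.exists_len_step hl hinv
  obtain ⟨C, hC⟩ := D.exists_markers
  set p0 : ℝ := 1 / ((Fintype.card ι : ℝ) + 1) with hp0
  have hp0pos : 0 < p0 := by positivity
  have hp01 : p0 ≤ 1 := by
    rw [hp0, div_le_one (by positivity)]; linarith [Nat.cast_nonneg (α := ℝ) (Fintype.card ι)]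
  obtain ⟨n, hn⟩ := D.kernel_small hl hinv hc hC hL1 hL hp0pos hp01
  set f : ℝ → ℝ := fun p => (D.reps.card : ℝ) ^ 2
    * ((n : ℝ) + L + 1) ^ (4 * Fintype.card κ) * ∑ g ∈ D.ball (n + L), D.kernelB nb n p g ^ 2 with hf
  have hfc : Continuous f :=
    continuous_const.mul (continuous_finsetSum _ fun g _ => (continuous_kernelB D n g).pow 2)
  set W : Set ℝ := {p | 0 ≤ p ∧ p ≤ 1 ∧ Witness nb p} with hW
  set ps : ℝ := sSup W with hps
  have hbdd : BddAbove W := ⟨1, fun p hp => hp.2.1⟩
  have hmem0 : p0 ∈ W := by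
    refine ⟨hp0pos.le, hp01, witness_small hp0pos.le hp01 ?_⟩
    rw [hp0, div_mul_eq_mul_div, one_mul, div_lt_one (by positivity)]
    linarith
  have hp0ps : p0 ≤ ps := le_csSup hbdd hmem0
  have hps1 : ps ≤ 1 := csSup_le ⟨p0, hmem0⟩ fun p hp => hp.2.1
  have hsub : ∀ p, p0 ≤ p → Witness nb p → p ≤ 1 → f p ≤ 1 / 8 := fun p hp hw hp1 => by
    obtain ⟨X, hX⟩ := susceptibility hl hinv (hp0pos.le.trans hp) hp1 hw
    exact hn p hp hp1 ⟨X, fun S F x => hX S F x⟩
  have hlow : ∀ p, p0 ≤ p → p < ps → f p ≤ 1 / 8 := fun p hp hlt => by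
    obtain ⟨q, hq, hpq⟩ := exists_lt_of_lt_csSup ⟨p0, hmem0⟩ hlt
    exact hsub p hp (witness_mono (hp0pos.le.trans hp) hpq.le hq.2.1 hq.2.2)
      (hpq.le.trans hq.2.1)
  have hfps : f ps ≤ 1 / 8 := by
    rcases hp0ps.lt_or_eq with hlt | heq
    · have hmem : ps ∈ closure (Set.Ico p0 ps) := by
        rw [closure_Ico hlt.ne]; exact Set.right_mem_Icc.2 hlt.le
      exact closure_minimal (fun p hp => hlow p hp.1 hp.2) (isClosed_le hfc continuous_const) hmem
    · rw [← heq]; exact hsub p0 le_rfl hmem0.2.2 hp01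
  have hps_lt : ps < 1 := by
    refine lt_of_le_of_ne hps1 fun h => ?_
    obtain ⟨K, hK⟩ := D.square_summable hl hinv hL (p := 1) zero_le_one le_rfl n
      (le_trans (show f 1 ≤ 1 / 8 by simpa only [h] using hfps) (by norm_num))
    obtain ⟨N, hN⟩ := exists_nat_gt K
    obtain ⟨F, hF⟩ := Infinite.exists_subset_card_eq (Γ × O) N
    obtain ⟨x⟩ := hc.nonempty
    choose S hS using fun y => T_one hl hc x y
    have hbig : ∀ y ∈ F, tauIn nb (F.biUnion S) 1 x y = 1 := fun y hy =>
      le_antisymm (tauIn_le_one _ zero_le_one le_rfl x y)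
        ((hS y).ge.trans (tauIn_mono hl (subset_biUnion_of_mem S hy) zero_le_one le_rfl x y))
    have h2 := hK x (F.biUnion S) F
    rw [sum_congr rfl fun y hy => by rw [hbig y hy, one_pow], sum_const, hF, nsmul_eq_mul,
      mul_one] at h2
    linarith
  obtain ⟨ε, hε, hεb⟩ := Metric.eventually_nhds_iff.1
    ((hfc.tendsto ps).eventually_le_const (show f ps < 1 / 4 by linarith))
  set p2 : ℝ := ps + min (ε / 2) ((1 - ps) / 2) with hp2
  have hmin : 0 < min (ε / 2) ((1 - ps) / 2) := lt_min (by linarith) (by linarith)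
  have hp2ps : ps < p2 := by linarith
  have hp21 : p2 < 1 := by
    have := min_le_right (ε / 2) ((1 - ps) / 2); linarith
  have hfp2 : f p2 ≤ 1 / 4 := by
    refine hεb ?_
    rw [Real.dist_eq, hp2, add_sub_cancel_left, abs_of_pos hmin]
    have := min_le_left (ε / 2) ((1 - ps) / 2); linarith
  have hps0 : 0 < ps := hp0pos.trans_le hp0ps
  obtain ⟨K, hK⟩ := D.square_summable hl hinv hL (p := p2) (by linarith) hp21.le n hfp2
  set q : unitInterval := ⟨(ps + p2) / 2, by constructor <;> linarith⟩ with hq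
  have hqv : (q : ℝ) = (ps + p2) / 2 := rfl
  set p3 : ℝ := (ps + (q : ℝ)) / 2 with hp3
  have hnw : ¬ Witness nb p3 := fun hw => by
    have : p3 ≤ ps := le_csSup hbdd ⟨by linarith, by linarith, hw⟩
    linarith
  simp only [Witness, not_forall, not_exists, not_and, not_lt] at hnw
  obtain ⟨o, ho⟩ := hnw
  have hperc : 0 < perc G q (hasInfinite G) := by
    refine lt_of_lt_of_le (infAt_pos_of_phi hl ((1 : Γ), o) q (p₀ := p3) (by linarith)
      (by linarith) (by linarith) fun p hp T hT =>
        (ho T hT).trans (phiIn_mono (by linarith) hp.1 (hp.2.trans q.2.2) T _)) ?_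
    exact measure_mono (by rw [hasInfinite_eq]; exact Set.subset_iUnion (infAt G) _)
  refine pc_lt_pu G q p2 (by linarith) hperc (perc_one_unique hc) fun q' hq' => ?_
  refine not_unique_of_sq hl hc (quasiTransitive_of_inv hinv) q' K fun x S F => ?_
  refine le_trans (sum_le_sum fun y _ => ?_) (hK x S F)
  exact pow_le_pow_left₀ (tauIn_nonneg S q'.2.1 q'.2.2 x y)
    (tauIn_mono_p S q'.2.1 hq'.le hp21.le x y) 2


end TreeAct

/-- Cayley graphs of finitely generated groups are connected and regular. -/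
theorem connected_regular_mulCayley {Δ : Type} [Group Δ] (S : Set Δ) (hfin : S.Finite)
    (hgen : Subgroup.closure S = ⊤) : (SimpleGraph.mulCayley S).Connected ∧
      ∃ d : ℕ, ∀ v, ((SimpleGraph.mulCayley S).neighborSet v).encard = d := by
  classical
  obtain ⟨s, rfl⟩ := hfin.exists_finset_coe
  set C := SimpleGraph.mulCayley (s : Set Δ) with hC
  have inv : ∀ d x y : Δ, C.Adj (d * x) (d * y) ↔ C.Adj x y :=
    fun _ _ _ => SimpleGraph.mulCayley_adj_mul_iff_right
  let lmul : Δ → (C ≃g C) := fun d => ⟨Equiv.mulLeft d, fun {x y} => inv d x y⟩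
  have hreach : ∀ x : Δ, C.Reachable 1 x := fun x => by
    have hx : x ∈ Subgroup.closure (s : Set Δ) := hgen ▸ Subgroup.mem_top x
    induction hx using Subgroup.closure_induction with
    | mem a ha =>
      by_cases h1 : a = 1
      · rw [h1]
      · exact SimpleGraph.Adj.reachable ((SimpleGraph.mulCayley_adj _ _ _).2
          ⟨fun h => h1 h.symm, Or.inl (by simpa using ha)⟩)
    | one => exact SimpleGraph.Reachable.refl _
    | mul a b _ _ ha hb =>
      have := hb.map (lmul a).toHom
      simp [lmul] at this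
      exact ha.trans this
    | inv a _ ha =>
      have := ha.map (lmul a⁻¹).toHom
      simp [lmul] at this
      exact this.symm
  have hconn : C.Connected :=
    { preconnected := fun x y => (hreach x).symm.trans (hreach y), nonempty := ⟨1⟩ }
  let t : Finset Δ := (s ∪ s.image (fun a => a⁻¹)).erase 1
  refine ⟨hconn, t.card, fun v => ?_⟩
  have : C.neighborSet v = ((t.image fun a => v * a : Finset Δ) : Set Δ) := by
    ext w
    rw [SimpleGraph.mem_neighborSet, hC, SimpleGraph.mulCayley_adj, coe_image, Set.mem_image]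
    constructor
    · rintro ⟨hne, h⟩
      refine ⟨v⁻¹ * w, mem_erase.2 ⟨fun h1 => hne (inv_mul_eq_one.1 h1), ?_⟩, mul_inv_cancel_left v w⟩
      rcases h with h | h
      · exact mem_union_left _ h
      · exact mem_union_right _ (mem_image.2 ⟨_, h, by rw [mul_inv_rev, inv_inv]⟩)
    · rintro ⟨a, ha, rfl⟩
      obtain ⟨ha1, ha⟩ := mem_erase.1 ha
      refine ⟨fun h => ha1 (by simpa using h.symm), ?_⟩
      rcases mem_union.1 ha with ha | ha
      · exact Or.inl (by simpa using ha)
      · obtain ⟨b, hb, rfl⟩ := mem_image.1 ha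
        exact Or.inr (by simpa using hb)
  rw [this, Set.encard_coe_eq_coe_finsetCard, card_image_of_injective _ (mul_right_injective v)]

/-- Free cofinite actions of cocompact lattices in products of trees, and Cayley graphs of groups
having such a lattice as a subgroup of finite index. -/
theorem pc_lt_pu_tree_lattice (m : ℕ) (hm : 1 ≤ m) (W : Fin m → Type)
    (H : ∀ t, SimpleGraph (W t)) (hT : ∀ t, (H t).IsTree)
    (hfin : ∀ t x, ((H t).neighborSet x).Finite) (hdeg : ∀ t x, 3 ≤ ((H t).neighborSet x).ncard)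
    (Γ : Type) [Group Γ] (act : ∀ t, Γ →* (H t ≃g H t))
    (hfree : ∀ (g : Γ) (x : ∀ t, W t), (∀ t, act t g (x t) = x t) → g = 1)
    (hcof : ∃ R : Finset (∀ t, W t), ∀ x : ∀ t, W t, ∃ g, ∃ r ∈ R, ∀ t, act t g (r t) = x t) :
    (∀ (V : Type) (G : SimpleGraph V) (d : ℕ), G.Connected →
      (∀ v, (G.neighborSet v).encard = d) → ∀ (Φ : Γ →* (G ≃g G)),
        (∀ g v, Φ g v = v → g = 1) → ∀ R : Finset V, (∀ v, ∃ g, Φ g v ∈ R) → pc G < pu G) ∧
    ∀ (Δ : Type) [Group Δ] (s : Set Δ), s.Finite → Subgroup.closure s = ⊤ →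
      ∀ ψ : Γ →* Δ, Function.Injective ψ → ψ.range.FiniteIndex →
        pc (SimpleGraph.mulCayley s) < pu (SimpleGraph.mulCayley s) := by
  classical
  obtain ⟨reps, hcov⟩ := hcof
  let D : TreeAct (Fin m) Γ :=
    { V := W, H := H, tree := hT, nbhd := hfin, deg := hdeg, φ := act, free := hfree
      o := fun t => (hT t).connected.nonempty.some, reps := reps, cover := hcov }
  have : Nonempty (Fin m) := ⟨⟨0, hm⟩⟩
  have hA : ∀ (V : Type) (G : SimpleGraph V) (d : ℕ), G.Connected →
      (∀ v, (G.neighborSet v).encard = d) → ∀ (Φ : Γ →* (G ≃g G)),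
        (∀ g v, Φ g v = v → g = 1) → ∀ R : Finset V, (∀ v, ∃ g, Φ g v ∈ R) → pc G < pu G := by
    intro V G d hc hd Φ free R cover
    obtain ⟨O, hO, hO', G', hinv, ⟨e⟩⟩ := exists_chart G Φ free R cover
    have hc' : G'.Connected := e.connected_iff.1 hc
    have hd' : ∀ x, (G'.neighborSet x).encard = d := fun x => by
      obtain ⟨v, rfl⟩ := e.surjective x
      rw [← hd v]
      exact (ENat.card_congr (e.mapNeighborSet v)).symm
    obtain ⟨nb, hl⟩ := exists_labelling G' d hd'
    have : Nonempty O := ⟨(hc'.nonempty.some).2⟩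
    rw [pc_congr e, pu_congr e]
    exact TreeAct.pc_lt_pu_invariant D hl hinv hc'
  refine ⟨hA, fun Δ _ s hs hgen ψ hψ hidx => ?_⟩
  obtain ⟨hconn, d, hd⟩ := connected_regular_mulCayley s hs hgen
  obtain ⟨Φ, R, free, cover⟩ := exists_leftAction (SimpleGraph.mulCayley s)
    (fun _ _ _ => SimpleGraph.mulCayley_adj_mul_iff_right) ψ hψ hidx
  exact hA Δ _ d hconn hd Φ free R cover

end Vale.Agent.P165.TL
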