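import Mathlib

/-!
# Products of trees: geodesics in a tree

`pt H u v i` is the vertex at distance `i` from `u` on the geodesic to `v`, and `gp H u a b` the
length of the common part of the geodesics from `u` to `a` and to `b`.
-/

namespace Vale.Agent.P165.TL

open SimpleGraph

variable {V W : Type} {H : SimpleGraph V}

open Classical in
/-- The vertex at distance `i` from `u` on a shortest path to `v`. -/
noncomputable def pt (H : SimpleGraph V) (u v : V) (i : ℕ) : V :=
  if h : ∃ p : H.Walk u v, p.IsPath then h.choose.getVert i else u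

theorem dist_of_path (hT : H.IsTree) {u v : V} {p : H.Walk u v} (hp : p.IsPath) :
    H.dist u v = p.length := by
  obtain ⟨q, hq, hlen⟩ := hT.connected.exists_path_of_dist u v
  obtain ⟨r, -, hr⟩ := hT.existsUnique_path u v
  rw [hr p hp, ← hr q hq, hlen]

theorem pt_of_path (hT : H.IsTree) {u v : V} {p : H.Walk u v} (hp : p.IsPath) (i : ℕ) :
    pt H u v i = p.getVert i := by
  have h : ∃ p : H.Walk u v, p.IsPath := ⟨p, hp⟩
  rw [pt, dif_pos h]
  obtain ⟨r, -, hr⟩ := hT.existsUnique_path u v
  rw [hr _ h.choose_spec, ← hr p hp]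

theorem exists_geo (hT : H.IsTree) (u v : V) :
    ∃ p : H.Walk u v, p.IsPath ∧ p.length = H.dist u v ∧ ∀ i, pt H u v i = p.getVert i := by
  obtain ⟨p, hp, -⟩ := hT.existsUnique_path u v
  exact ⟨p, hp, (dist_of_path hT hp).symm, pt_of_path hT hp⟩

theorem pt_zero (hT : H.IsTree) (u v : V) : pt H u v 0 = u := by
  obtain ⟨p, -, -, h⟩ := exists_geo hT u v
  rw [h, Walk.getVert_zero]

theorem pt_dist (hT : H.IsTree) (u v : V) : pt H u v (H.dist u v) = v := by
  obtain ⟨p, -, hl, h⟩ := exists_geo hT u v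
  rw [h, ← hl, Walk.getVert_length]

theorem adj_pt (hT : H.IsTree) {u v : V} {i : ℕ} (hi : i < H.dist u v) :
    H.Adj (pt H u v i) (pt H u v (i + 1)) := by
  obtain ⟨p, -, hl, h⟩ := exists_geo hT u v
  rw [h, h]
  exact p.adj_getVert_succ (by omega)

theorem pt_rev (hT : H.IsTree) {u v : V} {i : ℕ} :
    pt H v u i = pt H u v (H.dist u v - i) := by
  obtain ⟨p, hp, hl, h⟩ := exists_geo hT u v
  rw [h, pt_of_path hT hp.reverse, Walk.getVert_reverse, hl]

theorem dist_pt (hT : H.IsTree) {u v : V} {i : ℕ} (hi : i ≤ H.dist u v) :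
    H.dist u (pt H u v i) = i ∧ H.dist (pt H u v i) v = H.dist u v - i := by
  obtain ⟨p, hp, hl, h⟩ := exists_geo hT u v
  rw [h, dist_of_path hT (hp.take i), dist_of_path hT (hp.drop i), Walk.take_length,
    Walk.drop_length, hl]
  exact ⟨by omega, rfl⟩

/-- A vertex that splits the distance lies on the geodesic. -/
theorem pt_of_between (hT : H.IsTree) {u v x : V} (h : H.dist u x + H.dist x v = H.dist u v)
    (i : ℕ) :
    (i ≤ H.dist u x → pt H u v i = pt H u x i) ∧ pt H u v (H.dist u x + i) = pt H x v i := by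
  obtain ⟨p, -, hlp, hp'⟩ := exists_geo hT u x
  obtain ⟨q, -, hlq, hq'⟩ := exists_geo hT x v
  have hpath : (p.append q).IsPath :=
    Walk.isPath_of_length_eq_dist _ (by rw [Walk.length_append]; omega)
  refine ⟨fun hi => ?_, ?_⟩
  · rw [pt_of_path hT hpath, hp', Walk.getVert_append]
    split_ifs with hlt
    · rfl
    · rw [show i = p.length by omega, Nat.sub_self, Walk.getVert_zero, Walk.getVert_length]
  · rw [pt_of_path hT hpath, hq', Walk.getVert_append]
    rw [if_neg (by omega), hlp, Nat.add_sub_cancel_left]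

theorem eq_pt_of_between (hT : H.IsTree) {u v x : V} (h : H.dist u x + H.dist x v = H.dist u v) :
    pt H u v (H.dist u x) = x := by
  rw [(pt_of_between hT h _).1 le_rfl, pt_dist hT]

theorem pt_pt (hT : H.IsTree) {u v : V} {i j : ℕ} (hij : j ≤ i) (hi : i ≤ H.dist u v) :
    pt H u (pt H u v i) j = pt H u v j := by
  have h := dist_pt hT hi
  exact ((pt_of_between hT (u := u) (v := v) (x := pt H u v i) (by omega) j).1 (by omega)).symm

theorem pt_map {H' : SimpleGraph W} (hT : H.IsTree) (hT' : H'.IsTree) (φ : H ≃g H') (u v : V)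
    (i : ℕ) : pt H' (φ u) (φ v) i = φ (pt H u v i) := by
  obtain ⟨p, hp, -, h⟩ := exists_geo hT u v
  have e := pt_of_path hT' (Walk.IsPath.map (f := φ.toHom) φ.injective hp) i
  rw [Walk.getVert_map, ← h] at e
  exact e

theorem dist_map {H' : SimpleGraph W} (hT : H.IsTree) (hT' : H'.IsTree) (φ : H ≃g H') (u v : V) :
    H'.dist (φ u) (φ v) = H.dist u v := by
  obtain ⟨p, hp, hl, -⟩ := exists_geo hT u v
  have e := dist_of_path hT' (Walk.IsPath.map (f := φ.toHom) φ.injective hp)
  rw [Walk.length_map, hl] at e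
  exact e

open Classical in
/-- The common length of the geodesics from `u` to `a` and to `b`. -/
noncomputable def gp (H : SimpleGraph V) (u a b : V) : ℕ :=
  Nat.findGreatest (fun i => pt H u a i = pt H u b i ∧ i ≤ H.dist u b) (H.dist u a)

theorem gp_spec (hT : H.IsTree) (u a b : V) :
    gp H u a b ≤ H.dist u a ∧ gp H u a b ≤ H.dist u b ∧
      (∀ i ≤ gp H u a b, pt H u a i = pt H u b i) ∧
      (∀ i, i ≤ H.dist u a → i ≤ H.dist u b → pt H u a i = pt H u b i → i ≤ gp H u a b) ∧
      H.dist a b + 2 * gp H u a b = H.dist u a + H.dist u b := by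
  classical
  set P : ℕ → Prop := fun i => pt H u a i = pt H u b i ∧ i ≤ H.dist u b
  set g := gp H u a b with hgd
  have hg : g ≤ H.dist u a := Nat.findGreatest_le _
  have h0 : P 0 := ⟨by rw [pt_zero hT, pt_zero hT], Nat.zero_le _⟩
  obtain ⟨heq, hgb⟩ : P g := Nat.findGreatest_spec (P := P) (Nat.zero_le _) h0
  have hmax : ∀ i, i ≤ H.dist u a → i ≤ H.dist u b → pt H u a i = pt H u b i → i ≤ g :=
    fun i ha hb h => Nat.le_findGreatest ha ⟨h, hb⟩
  have hall : ∀ i ≤ g, pt H u a i = pt H u b i := fun i hi => by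
    rw [← pt_pt hT hi hg, heq, pt_pt hT hi hgb]
  refine ⟨hg, hgb, hall, hmax, ?_⟩
  obtain ⟨p, hp, hlp, hp'⟩ := exists_geo hT u a
  obtain ⟨q, hq, hlq, hq'⟩ := exists_geo hT u b
  have e : p.getVert g = q.getVert g := by rw [← hp', ← hq', heq]
  set r : H.Walk a (p.getVert g) := (p.drop g).reverse with hr
  set s : H.Walk (p.getVert g) b := (q.drop g).copy e.symm rfl with hs
  have hpath : (r.append s).IsPath := by
    rw [Walk.isPath_def, Walk.support_append, List.nodup_append]
    have hrp : r.IsPath := (hp.drop g).reverse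
    have hsp : s.IsPath := by rw [hs, Walk.isPath_copy]; exact hq.drop g
    refine ⟨hrp.support_nodup, hsp.support_nodup.tail, fun z hz z' hz' hzz => ?_⟩
    subst hzz
    rw [hr, Walk.support_reverse, List.mem_reverse] at hz
    obtain ⟨i, hi, hil⟩ := Walk.mem_support_iff_exists_getVert.1 hz
    have hz'' := List.mem_of_mem_tail hz'
    rw [hs, Walk.support_copy] at hz''
    obtain ⟨j, hj, hjl⟩ := Walk.mem_support_iff_exists_getVert.1 hz''
    rw [Walk.drop_getVert] at hi hj
    rw [Walk.drop_length] at hil hjl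
    have e1 : H.dist u z = g + i := by rw [← hi, ← hp', (dist_pt hT (by omega)).1]
    have e2 : H.dist u z = g + j := by rw [← hj, ← hq', (dist_pt hT (by omega)).1]
    have hij : g + i ≤ g := hmax _ (by omega) (by omega) (by rw [hp', hq', hi, show g + i = g + j by omega, hj])
    have hzg : z = p.getVert g := by rw [← hi, show g + i = g by omega]
    refine (List.nodup_cons.1 ?_).1 (hzg ▸ hz')
    rw [Walk.cons_tail_support]
    exact hsp.support_nodup
  rw [dist_of_path hT hpath, Walk.length_append, hr, hs, Walk.length_reverse, Walk.length_copy,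
    Walk.drop_length, Walk.drop_length]
  omega

theorem gp_comm (hT : H.IsTree) (u a b : V) : gp H u a b = gp H u b a := by
  have h1 := (gp_spec hT u a b).2.2.2.2
  have h2 := (gp_spec hT u b a).2.2.2.2
  rw [SimpleGraph.dist_comm (u := b)] at h2
  omega

theorem gp_min (hT : H.IsTree) (u a b c : V) :
    min (gp H u a b) (gp H u b c) ≤ gp H u a c := by
  obtain ⟨h1, -, h3, -⟩ := gp_spec hT u a b
  obtain ⟨-, h2', h3', -⟩ := gp_spec hT u b c
  refine (gp_spec hT u a c).2.2.2.1 _ ((min_le_left _ _).trans h1) ((min_le_right _ _).trans h2') ?_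
  rw [h3 _ (min_le_left _ _), h3' _ (min_le_right _ _)]

/-- The branching point lies on all three geodesics. -/
theorem gp_between (hT : H.IsTree) (u a b : V) :
    H.dist a (pt H u a (gp H u a b)) + H.dist (pt H u a (gp H u a b)) b = H.dist a b := by
  obtain ⟨h1, h2, h3, -, h5⟩ := gp_spec hT u a b
  have ha := (dist_pt hT h1).2
  have hb := (dist_pt hT h2).2
  rw [h3 _ le_rfl] at ha ⊢
  rw [SimpleGraph.dist_comm (u := a) (v := pt H u b (gp H u a b))]
  omega

/-- Geodesics leaving `u` in different directions concatenate. -/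
theorem dist_of_ne (hT : H.IsTree) {u a b : V}
    (h : H.dist u a = 0 ∨ H.dist u b = 0 ∨ pt H u a 1 ≠ pt H u b 1) :
    H.dist a u + H.dist u b = H.dist a b := by
  obtain ⟨h1, h2, h3, -, h5⟩ := gp_spec hT u a b
  have hg : gp H u a b = 0 := by
    by_contra hne
    rcases h with h | h | h
    · omega
    · omega
    · exact h (h3 1 (by omega))
  rw [SimpleGraph.dist_comm (u := a) (v := u)]
  omega

/-- The first deviation of a geodesic from another one. -/
theorem gp_eq_of_ne (hT : H.IsTree) {u a b : V} {i : ℕ} (ha : i ≤ H.dist u a) (hb : i ≤ H.dist u b)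
    (he : pt H u a i = pt H u b i)
    (hne : i < H.dist u a → i < H.dist u b → pt H u a (i + 1) ≠ pt H u b (i + 1)) :
    gp H u a b = i := by
  obtain ⟨h1, h2, h3, h4, -⟩ := gp_spec hT u a b
  refine le_antisymm ?_ (h4 i ha hb he)
  by_contra hlt
  exact hne (by omega) (by omega) (h3 _ (by omega))

end Vale.Agent.P165.TL
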