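import Mathlib

/-!
# Products of trees: few candidates for the next mark

A mirror is a group element that maps, in every coordinate, the path before a position backwards
onto the path after the position displaced by the length of the marker.  If the group acts freely on
the product, three mirrors at nearby scales would make the square of the marker fix the base point,
so there are only polylogarithmically many mirrors.
-/

namespace Vale.Agent.P165.TL

open Finset

variable {κ Γ : Type} [Group Γ] {V : κ → Type}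

/-- The marker `c`, of lengths `d`, is a mirror at the positions `a` of the sequences `γ`. -/
def Mirror (φ : ∀ t, Γ →* Equiv.Perm (V t)) (o : ∀ t, V t) (γ : ∀ t, ℕ → V t) (c : Γ) (d : κ → ℕ)
    (a : κ → ℕ) : Prop :=
  ∃ g : Γ, (∀ t, φ t g (o t) = γ t (a t)) ∧
    ∀ t, ∀ i ≤ a t, φ t (g * c * g⁻¹) (γ t (a t - i)) = γ t (a t + d t + i)

theorem perm_inv {W : Type} (f : Γ →* Equiv.Perm W) {b : Γ} {x y : W} (h : f b x = y) :
    f b⁻¹ y = x := by
  rw [← h, map_inv]; exact (f b).symm_apply_apply x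

theorem perm_mul {W : Type} (f : Γ →* Equiv.Perm W) (a b : Γ) (x : W) :
    f (a * b) x = f a (f b x) := by rw [map_mul]; rfl

/-- Two ways of composing three mirrors agree. -/
theorem mirrors_commute (φ : ∀ t, Γ →* Equiv.Perm (V t))
    (hfree : ∀ (g : Γ) (x : ∀ t, V t), (∀ t, φ t g (x t) = x t) → g = 1) (γ : ∀ t, ℕ → V t)
    (d a b c : κ → ℕ) (u v w : Γ)
    (hu : ∀ t, ∀ i ≤ a t, φ t u (γ t (a t - i)) = γ t (a t + d t + i))
    (hv : ∀ t, ∀ i ≤ b t, φ t v (γ t (b t - i)) = γ t (b t + d t + i))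
    (hw : ∀ t, ∀ i ≤ c t, φ t w (γ t (c t - i)) = γ t (c t + d t + i))
    (hclose : ∀ t, 8 * a t ≤ 9 * b t ∧ 8 * b t ≤ 9 * a t ∧ 8 * a t ≤ 9 * c t ∧
      8 * c t ≤ 9 * a t ∧ 8 * b t ≤ 9 * c t ∧ 8 * c t ≤ 9 * b t) :
    v * w⁻¹ * u = u * w⁻¹ * v := by
  set x : κ → ℕ := fun t => max (2 * a t - 2 * c t) (2 * b t - 2 * c t) with hx
  suffices h : ∀ t, φ t (v * w⁻¹ * u) (γ t (x t)) = φ t (u * w⁻¹ * v) (γ t (x t)) by
    refine inv_mul_eq_one.1 (hfree _ (fun t => γ t (x t)) fun t => ?_)
    rw [perm_mul, ← h t]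
    exact perm_inv (φ t) rfl
  intro t
  obtain ⟨h1, h2, h3, h4, h5, h6⟩ := hclose t
  have hxt : x t = max (2 * a t - 2 * c t) (2 * b t - 2 * c t) := rfl
  have eu := hu t (a t - x t) (by omega)
  have ew := perm_inv (φ t) (hw t (2 * a t - x t - c t) (by omega))
  have ev := hv t (b t - (2 * c t + x t - 2 * a t)) (by omega)
  have ev' := hv t (b t - x t) (by omega)
  have ew' := perm_inv (φ t) (hw t (2 * b t - x t - c t) (by omega))
  have eu' := hu t (a t - (2 * c t + x t - 2 * b t)) (by omega)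
  rw [show a t - (a t - x t) = x t by omega,
    show a t + d t + (a t - x t) = 2 * a t + d t - x t by omega] at eu
  rw [show c t + d t + (2 * a t - x t - c t) = 2 * a t + d t - x t by omega,
    show c t - (2 * a t - x t - c t) = 2 * c t + x t - 2 * a t by omega] at ew
  rw [show b t - (b t - (2 * c t + x t - 2 * a t)) = 2 * c t + x t - 2 * a t by omega] at ev
  rw [show b t - (b t - x t) = x t by omega,
    show b t + d t + (b t - x t) = 2 * b t + d t - x t by omega] at ev'
  rw [show c t + d t + (2 * b t - x t - c t) = 2 * b t + d t - x t by omega,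
    show c t - (2 * b t - x t - c t) = 2 * c t + x t - 2 * b t by omega] at ew'
  rw [show a t - (a t - (2 * c t + x t - 2 * b t)) = 2 * c t + x t - 2 * b t by omega] at eu'
  rw [perm_mul, perm_mul, eu, ew, ev, perm_mul, perm_mul, ev', ew', eu']
  congr 1
  omega

/-- Three nearby mirrors do not exist. -/
theorem no_three (φ : ∀ t, Γ →* Equiv.Perm (V t))
    (hfree : ∀ (g : Γ) (x : ∀ t, V t), (∀ t, φ t g (x t) = x t) → g = 1) (o : ∀ t, V t)
    (γ : ∀ t, ℕ → V t) (e : Γ) (d a b c : κ → ℕ) (ha : Mirror φ o γ e d a)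
    (hb : Mirror φ o γ e d b) (hc : Mirror φ o γ e d c)
    (hclose : ∀ t, 8 * a t ≤ 9 * b t ∧ 8 * b t ≤ 9 * a t ∧ 8 * a t ≤ 9 * c t ∧
      8 * c t ≤ 9 * a t ∧ 8 * b t ≤ 9 * c t ∧ 8 * c t ≤ 9 * b t)
    (t : κ) (hab : a t + d t ≤ b t) (hbc : b t + d t ≤ c t)
    (hsq : φ t (e * e) (o t) ≠ o t) : False := by
  obtain ⟨ga, -, hu⟩ := ha
  obtain ⟨gb, hgo, hv⟩ := hb
  obtain ⟨gc, -, hw⟩ := hc
  set u := ga * e * ga⁻¹
  set v := gb * e * gb⁻¹ with hvdef
  set w := gc * e * gc⁻¹
  obtain ⟨h1, h2, h3, h4, h5, h6⟩ := hclose t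
  set x := b t + d t + 2 * a t - 2 * c t with hx
  have eu := hu t (a t - x) (by omega)
  have ew := perm_inv (φ t) (hw t (2 * a t - x - c t) (by omega))
  have ev' := hv t (b t - x) (by omega)
  have ew' := perm_inv (φ t) (hw t (2 * b t - x - c t) (by omega))
  have eu' := hu t (a t - (2 * a t + d t - b t)) (by omega)
  rw [show a t - (a t - x) = x by omega,
    show a t + d t + (a t - x) = 2 * a t + d t - x by omega] at eu
  rw [show c t + d t + (2 * a t - x - c t) = 2 * a t + d t - x by omega,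
    show c t - (2 * a t - x - c t) = b t + d t by omega] at ew
  rw [show b t - (b t - x) = x by omega,
    show b t + d t + (b t - x) = 2 * b t + d t - x by omega] at ev'
  rw [show c t + d t + (2 * b t - x - c t) = 2 * b t + d t - x by omega,
    show c t - (2 * b t - x - c t) = 2 * a t + d t - b t by omega] at ew'
  rw [show a t - (a t - (2 * a t + d t - b t)) = 2 * a t + d t - b t by omega,
    show a t + d t + (a t - (2 * a t + d t - b t)) = b t by omega] at eu'
  have key := congrArg (fun g => φ t g (γ t x))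
    (mirrors_commute φ hfree γ d a b c u v w hu hv hw hclose)
  simp only [perm_mul] at key
  rw [eu, ew, ev', ew', eu'] at key
  have h0 := hv t 0 (Nat.zero_le _)
  rw [Nat.sub_zero, Nat.add_zero] at h0
  have hfix : φ t (v * v) (γ t (b t)) = γ t (b t) := by rw [perm_mul, h0, key]
  rw [← hgo t, ← perm_mul, show v * v * gb = gb * (e * e) by rw [hvdef]; group,
    perm_mul] at hfix
  exact hsq ((φ t gb).injective hfix)

/-- The scale class of a position. -/
def scale (dt a : ℕ) : ℕ × ℕ × ℕ := (Nat.log 2 a, 8 * a / 2 ^ Nat.log 2 a, a % dt)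

theorem scale_close {dt a b : ℕ} (h : scale dt a = scale dt b) : 8 * a ≤ 9 * b := by
  simp only [scale, Prod.mk.injEq] at h
  obtain ⟨hl, hq, -⟩ := h
  rw [← hl] at hq
  rcases Nat.eq_zero_or_pos b with rfl | hb
  · simp only [Nat.log_zero_right] at hl
    rw [hl] at hq; simpa using hq
  have h2 : 0 < 2 ^ Nat.log 2 a := by positivity
  have h3 := Nat.lt_mul_div_succ (8 * a) h2
  have h4 := Nat.mul_div_le (8 * b) (2 ^ Nat.log 2 a)
  have h5 : 2 ^ Nat.log 2 a ≤ b := by rw [hl]; exact Nat.pow_log_le_self 2 hb.ne'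
  rw [hq, Nat.mul_succ] at h3
  omega

theorem scale_gap {dt a b : ℕ} (h : scale dt a = scale dt b) (hab : a < b) : a + dt ≤ b := by
  simp only [scale, Prod.mk.injEq] at h
  have hd : dt ∣ b - a := Nat.dvd_of_mod_eq_zero (Nat.sub_mod_eq_zero_of_mod_eq h.2.2.symm)
  have := Nat.le_of_dvd (by omega) hd
  omega

variable [Fintype κ] [DecidableEq κ]

/-- There are only polylogarithmically many mirrors. -/
theorem card_mirrors (φ : ∀ t, Γ →* Equiv.Perm (V t))
    (hfree : ∀ (g : Γ) (x : ∀ t, V t), (∀ t, φ t g (x t) = x t) → g = 1) (o : ∀ t, V t)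
    (γ : ∀ t, ℕ → V t) (e : Γ) (d : κ → ℕ) (hd : ∀ t, 1 ≤ d t)
    (hsq : ∀ t, φ t (e * e) (o t) ≠ o t) (B : ℕ) (A : Finset (κ → ℕ))
    (hA : ∀ a ∈ A, Mirror φ o γ e d a ∧ ∀ t, a t ≤ B) :
    A.card ≤ 2 ^ Fintype.card κ * ∏ t, ((Nat.log 2 B + 1) * (16 * d t)) := by
  set K : Finset (κ → ℕ × ℕ × ℕ) :=
    Fintype.piFinset fun t => range (Nat.log 2 B + 1) ×ˢ (range 16 ×ˢ range (d t)) with hK
  have hmaps : ∀ a ∈ A, (fun t => scale (d t) (a t)) ∈ K := fun a ha => by
    refine Fintype.mem_piFinset.2 fun t => ?_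
    simp only [scale, mem_product, mem_range]
    refine ⟨Nat.lt_succ_of_le (Nat.log_mono_right ((hA a ha).2 t)), ?_, Nat.mod_lt _ (hd t)⟩
    rw [Nat.div_lt_iff_lt_mul (by positivity)]
    have := Nat.lt_pow_succ_log_self (b := 2) one_lt_two (a t)
    rw [pow_succ] at this
    omega
  have hKc : K.card = ∏ t, ((Nat.log 2 B + 1) * (16 * d t)) := by simp [hK]
  rw [← hKc, mul_comm]
  rw [card_eq_sum_card_fiberwise hmaps]
  refine (sum_le_card_nsmul _ _ (2 ^ Fintype.card κ) fun k _ => ?_).trans_eq (smul_eq_mul _ _)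
  set F := A.filter fun a => (fun t => scale (d t) (a t)) = k
  have hF : ∀ p ∈ F, ∀ q ∈ F, ∀ t, scale (d t) (p t) = scale (d t) (q t) := fun p hp q hq t =>
    congrFun ((mem_filter.1 hp).2.trans (mem_filter.1 hq).2.symm) t
  have htwo : ∀ t, (F.image fun a => a t).card ≤ 2 := by
    intro t
    by_contra hlt
    obtain ⟨x, y, z, hx, hy, hz, hxy, hxz, hyz⟩ := two_lt_card_iff.1 (Nat.lt_of_not_le hlt)
    obtain ⟨p, hp, rfl⟩ := mem_image.1 hx
    obtain ⟨q, hq, rfl⟩ := mem_image.1 hy
    obtain ⟨r, hr, rfl⟩ := mem_image.1 hz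
    have main : ∀ a ∈ F, ∀ b ∈ F, ∀ c ∈ F, a t < b t → b t < c t → False :=
      fun a ha b hb c hc h1 h2 => no_three φ hfree o γ e d a b c (hA a (mem_filter.1 ha).1).1
        (hA b (mem_filter.1 hb).1).1 (hA c (mem_filter.1 hc).1).1
        (fun s => ⟨scale_close (hF a ha b hb s), scale_close (hF b hb a ha s),
          scale_close (hF a ha c hc s), scale_close (hF c hc a ha s),
          scale_close (hF b hb c hc s), scale_close (hF c hc b hb s)⟩)
        t (scale_gap (hF a ha b hb t) h1) (scale_gap (hF b hb c hc t) h2) (hsq t)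
    rcases lt_or_gt_of_ne hxy with h1 | h1 <;> rcases lt_or_gt_of_ne hxz with h2 | h2 <;>
      rcases lt_or_gt_of_ne hyz with h3 | h3
    · exact main p hp q hq r hr h1 h3
    · exact main p hp r hr q hq h2 h3
    · omega
    · exact main r hr p hp q hq h2 h1
    · exact main q hq p hp r hr h1 h2
    · omega
    · exact main q hq r hr p hp h3 h2
    · exact main r hr q hq p hp h3 h1
  calc F.card ≤ (Fintype.piFinset fun t => F.image fun a => a t).card :=
        card_le_card fun a ha => Fintype.mem_piFinset.2 fun t => mem_image_of_mem _ ha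
    _ = ∏ t, (F.image fun a => a t).card := Fintype.card_piFinset _
    _ ≤ ∏ _t : κ, 2 := prod_le_prod' fun t _ => htwo t
    _ = _ := by rw [prod_const, card_univ]

end Vale.Agent.P165.TL
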