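import Vale.Agent.P165.FF.Ramsey

/-!
# Ramsey theorem for quadruples and many flags

If among any five points one of three quadruples is good in each coordinate, then a positive
fraction of the `k`-subsets have, in every coordinate, every quadruple formed by three consecutive
points and the last one good.
-/

namespace Vale.Agent.P165.TL

open Finset

/-- Every quadruple of three consecutive entries of `l` and its last entry is good. -/
def QuadFlag {κ : Type} (col : κ → ℕ → ℕ → ℕ → ℕ → Prop) (l : List ℕ) : Prop :=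
  ∀ (t : κ) (i : ℕ), ∀ a ∈ l[i]?, ∀ b ∈ l[i + 1]?, ∀ c ∈ l[i + 2]?, ∀ d ∈ l.getLast?,
    c < d → col t a b c d

section Ramsey

variable {σ : Type} [Fintype σ] [DecidableEq σ] [Nonempty σ]

/-- End-homogeneous subsets for colourings of quadruples. -/
theorem endHom_quads (r : ℕ) : ∃ K, ∀ (f : ℕ → ℕ → ℕ → ℕ → σ) (A : Finset ℕ), K ≤ A.card →
    ∃ I ⊆ A, I.card = r ∧ ∀ a ∈ I, ∀ b ∈ I, ∀ c ∈ I, ∀ d ∈ I, ∀ b' ∈ I, ∀ c' ∈ I, ∀ d' ∈ I,
      a < b → b < c → c < d → a < b' → b' < c' → c' < d' → f a b c d = f a b' c' d' := by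
  induction r with
  | zero => exact ⟨0, fun f A _ => ⟨∅, empty_subset _, rfl, by simp⟩⟩
  | succ r ih =>
    obtain ⟨K, hK⟩ := ih
    obtain ⟨K', hK'⟩ := FF.ramsey_triples (κ := σ) K
    refine ⟨K' + 1, fun f A hA => ?_⟩
    have hne : A.Nonempty := card_pos.1 (by omega)
    set a := A.min' hne with ha
    have haA : a ∈ A := A.min'_mem hne
    obtain ⟨B, hBA, hB, col, hBhom⟩ := hK' (f a) (A.erase a) (by
      rw [card_erase_of_mem haA]; omega)
    obtain ⟨I, hI, hcard, hhom⟩ := hK f B hB.ge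
    have hIA : ∀ b ∈ I, b ∈ A ∧ a < b := fun b hb => by
      obtain ⟨h3, h4⟩ := mem_erase.1 (hBA (hI hb))
      exact ⟨h4, lt_of_le_of_ne (A.min'_le b h4) (Ne.symm h3)⟩
    have haI : a ∉ I := fun h => (hIA a h).2.false
    refine ⟨insert a I, insert_subset haA fun b hb => (hIA b hb).1, ?_, ?_⟩
    · rw [card_insert_of_notMem haI, hcard]
    · intro x hx b hb c hc d hd b' hb' c' hc' d' hd' hxb hbc hcd hxb' hbc' hcd'
      have mem : ∀ y ∈ insert a I, x < y → y ∈ I := by
        intro y hy hxy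
        rcases mem_insert.1 hy with rfl | h
        · rcases mem_insert.1 hx with rfl | hxI
          · exact absurd hxy (lt_irrefl _)
          · exact absurd ((hIA x hxI).2.trans hxy) (lt_irrefl _)
        · exact h
      have hbI := mem b hb hxb
      have hcI := mem c hc (hxb.trans hbc)
      have hdI := mem d hd (hxb.trans (hbc.trans hcd))
      have hbI' := mem b' hb' hxb'
      have hcI' := mem c' hc' (hxb'.trans hbc')
      have hdI' := mem d' hd' (hxb'.trans (hbc'.trans hcd'))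
      rcases mem_insert.1 hx with rfl | hxI
      · rw [hBhom b (hI hbI) c (hI hcI) d (hI hdI) hbc hcd,
          hBhom b' (hI hbI') c' (hI hcI') d' (hI hdI') hbc' hcd']
      · exact hhom x hxI b hbI c hcI d hdI b' hbI' c' hcI' d' hdI' hxb hbc hcd hxb' hbc' hcd'

/-- Ramsey's theorem for quadruples. -/
theorem ramsey_quads (k : ℕ) : ∃ K, ∀ (f : ℕ → ℕ → ℕ → ℕ → σ) (A : Finset ℕ),
    K ≤ A.card → ∃ I ⊆ A, I.card = k ∧ ∃ col, ∀ a ∈ I, ∀ b ∈ I, ∀ c ∈ I, ∀ d ∈ I,
      a < b → b < c → c < d → f a b c d = col := by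
  obtain ⟨R, hR⟩ := FF.ramsey_triples (κ := σ) k
  obtain ⟨K, hK⟩ := endHom_quads (σ := σ) R
  refine ⟨K, fun f A hA => ?_⟩
  obtain ⟨J, hJA, hJ, hhom⟩ := hK f A hA
  let g : ℕ → ℕ → ℕ → σ := fun a b c =>
    if h : (J.filter fun d => c < d).Nonempty then f a b c ((J.filter fun d => c < d).min' h)
    else Classical.arbitrary σ
  have hg : ∀ a ∈ J, ∀ b ∈ J, ∀ c ∈ J, ∀ d ∈ J, a < b → b < c → c < d →
      f a b c d = g a b c := by
    intro a ha b hb c hc d hd hab hbc hcd
    have h : (J.filter fun d => c < d).Nonempty := ⟨d, mem_filter.2 ⟨hd, hcd⟩⟩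
    have h' := mem_filter.1 (min'_mem _ h)
    simp only [g, dif_pos h]
    exact hhom a ha b hb c hc d hd b hb c hc _ h'.1 hab hbc hcd hab hbc h'.2
  obtain ⟨I, hIJ, hI, col, hcol⟩ := hR g J hJ.ge
  refine ⟨I, fun a ha => hJA (hIJ ha), hI, col, fun a ha b hb c hc d hd h1 h2 h3 => ?_⟩
  rw [hg a (hIJ ha) b (hIJ hb) c (hIJ hc) d (hIJ hd) h1 h2 h3, hcol a ha b hb c hc h1 h2]

end Ramsey

open Classical in
/-- A positive fraction of all `k`-subsets of `range N` are flags in every coordinate. -/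
theorem many_flags (κ : Type) [Fintype κ] (k : ℕ) : ∃ c : ℝ, 0 < c ∧ ∃ N0 : ℕ, ∀ N ≥ N0,
    ∀ col : κ → ℕ → ℕ → ℕ → ℕ → Prop,
      (∀ t a b c d e, a < b → b < c → c < d → d < e → e < N →
        col t a b c d ∨ col t a c d e ∨ col t b c d e) →
      c * (N : ℝ) ^ k ≤
        (((range N).powersetCard k).filter fun I => QuadFlag col (I.sort (· ≤ ·))).card := by
  obtain ⟨K₀, hK₀⟩ := ramsey_quads (σ := κ → Bool) (k + 5)
  set K := max K₀ (k + 5) with hKdef
  have hkK : k ≤ K := le_trans (Nat.le_add_right k 5) (le_max_right _ _)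
  have hKk : 0 < K.choose k := Nat.choose_pos hkK
  refine ⟨1 / (2 ^ k * k.factorial * (K.choose k : ℝ)), ?_, 2 * K, fun N hN col hcol => ?_⟩
  · have : (0 : ℝ) < K.choose k := by exact_mod_cast hKk
    positivity
  set G := ((range N).powersetCard k).filter fun I => QuadFlag col (I.sort (· ≤ ·)) with hG
  have hsat : N.choose k ≤ K.choose k * G.card := by
    have := FF.supersaturation (P := fun I => QuadFlag col (I.sort (· ≤ ·))) hkK
      (A := range N) (by rw [card_range]; omega) fun B hBN hB => by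
      obtain ⟨J, hJB, hJ, q, hq⟩ := hK₀ (fun a b c d t => decide (col t a b c d)) B
        (by rw [hB]; exact le_max_left _ _)
      have htrue : ∀ t, q t = true := by
        intro t
        set f := J.orderEmbOfFin hJ
        have hf : ∀ i, f i ∈ J := orderEmbOfFin_mem J hJ
        have hlt : ∀ i j : Fin (k + 5), i.val < j.val → f i < f j := fun i j h => f.strictMono h
        let a : Fin 5 → ℕ := fun i => f ⟨i.val, by omega⟩
        have ha : ∀ i, a i ∈ J := fun i => hf _
        have h01 : a 0 < a 1 := hlt _ _ (by simp)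
        have h12 : a 1 < a 2 := hlt _ _ (by simp)
        have h23 : a 2 < a 3 := hlt _ _ (by simp)
        have h34 : a 3 < a 4 := hlt _ _ (by simp)
        rcases hcol t (a 0) (a 1) (a 2) (a 3) (a 4) h01 h12 h23 h34
          (mem_range.1 (hBN (hJB (ha 4)))) with h | h | h
        · rw [← hq _ (ha 0) _ (ha 1) _ (ha 2) _ (ha 3) h01 h12 h23]; exact decide_eq_true h
        · rw [← hq _ (ha 0) _ (ha 2) _ (ha 3) _ (ha 4) (h01.trans h12) h23 h34]
          exact decide_eq_true h
        · rw [← hq _ (ha 1) _ (ha 2) _ (ha 3) _ (ha 4) h12 h23 h34]; exact decide_eq_true h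
      obtain ⟨I, hIJ, hI⟩ := exists_subset_card_eq (show k ≤ J.card by omega)
      refine ⟨I, hIJ.trans hJB, hI, fun t i a ha b hb c hc d hd hcd => ?_⟩
      obtain ⟨h1, rfl⟩ := List.getElem?_eq_some_iff.1 ha
      obtain ⟨h2, rfl⟩ := List.getElem?_eq_some_iff.1 hb
      obtain ⟨h3, rfl⟩ := List.getElem?_eq_some_iff.1 hc
      have hs := (sortedLT_sort I).strictMono_get
      have hdJ : d ∈ J := hIJ ((Finset.mem_sort _).1 (List.mem_of_getLast? hd))
      refine of_decide_eq_true ((congrFun (hq _ ?_ _ ?_ _ ?_ d hdJ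
        (hs (a := ⟨i, h1⟩) (b := ⟨i + 1, h2⟩) (Nat.lt_succ_self i))
        (hs (a := ⟨i + 1, h2⟩) (b := ⟨i + 2, h3⟩) (Nat.lt_succ_self _)) hcd) t).trans (htrue t))
      all_goals exact hIJ ((Finset.mem_sort _).1 (List.getElem_mem _))
    rw [card_range] at this
    exact this
  have hpow : (((N + 1 - k : ℕ) : ℝ)) ^ k / (k.factorial : ℝ) ≤ N.choose k :=
    Nat.pow_le_choose k N
  have hhalf : (N : ℝ) / 2 ≤ ((N + 1 - k : ℕ) : ℝ) := by
    rw [Nat.cast_sub (by omega)]
    have : (2 : ℝ) * k ≤ N := by exact_mod_cast (show 2 * k ≤ N by omega)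
    push_cast
    linarith
  have hK : (0 : ℝ) < K.choose k := by exact_mod_cast hKk
  have hsatR : (N.choose k : ℝ) ≤ K.choose k * G.card := by exact_mod_cast hsat
  have h1 : ((N : ℝ) / 2) ^ k / (k.factorial : ℝ) ≤ K.choose k * G.card :=
    le_trans (le_trans (div_le_div_of_nonneg_right
      (pow_le_pow_left₀ (by positivity) hhalf k) (by positivity)) hpow) hsatR
  calc 1 / (2 ^ k * k.factorial * (K.choose k : ℝ)) * (N : ℝ) ^ k
      = ((N : ℝ) / 2) ^ k / (k.factorial : ℝ) / K.choose k := by rw [div_pow]; field_simp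
    _ ≤ _ := by rw [div_le_iff₀ hK]; linarith

end Vale.Agent.P165.TL
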