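import Vale.Agent.P165.TL.Setup

/-!
# Products of trees: few chains share one threaded product

With markers inserted, the products of a chain read as one geodesic in every tree.  Knowing the last
point of the chain, the descent towards it is exact and the ascent ends at one of polylogarithmically
many mirrors, so the chain is nearly determined by the product.
-/

namespace Vale.Agent.P165.TL

open Finset

variable {κ Γ : Type} [Group Γ] (D : TreeAct κ Γ)

namespace TreeAct

theorem geo_left (t : κ) {g h : Γ} (hadd : D.len t (g * h) = D.len t g + D.len t h) {i : ℕ}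
    (hi : i ≤ D.len t g) : D.geo (g * h) t i = D.geo g t i := by
  refine ((pt_of_between (D.tree t) (x := D.at' g t) ?_ i).1 hi)
  rw [D.dist_at, inv_mul_cancel_left]
  exact hadd.symm

theorem geo_right (t : κ) {g h : Γ} (hadd : D.len t (g * h) = D.len t g + D.len t h) (i : ℕ) :
    D.geo (g * h) t (D.len t g + i) = D.act t g (D.geo h t i) := by
  have e := (pt_of_between (D.tree t) (u := D.o t) (v := D.at' (g * h) t) (x := D.at' g t)
    (by rw [D.dist_at, inv_mul_cancel_left]; exact hadd.symm) i).2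
  refine e.trans ?_
  rw [at_mul, at']
  exact D.pt_act t g _ _ i

theorem geo_inv (t : κ) (g : Γ) {i : ℕ} (hi : i ≤ D.len t g) :
    D.geo g⁻¹ t i = D.act t g⁻¹ (D.geo g t (D.len t g - i)) := by
  have := hi
  rw [geo, geo, len, ← pt_rev (D.tree t), ← D.pt_act t g⁻¹]
  congr 1
  exact (D.act_inv_act t g _).symm

theorem meet_spec (t : κ) (e a b : Γ) :
    D.len t (a⁻¹ * b) + 2 * D.meet t e a b = D.len t (e⁻¹ * a) + D.len t (e⁻¹ * b) := by
  rw [← D.dist_at, ← D.dist_at, ← D.dist_at]
  exact (gp_spec (D.tree t) _ _ _).2.2.2.2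

theorem geo_eq_of_meet (t : κ) (a b : Γ) {i : ℕ} (hi : i ≤ D.meet t 1 a b) :
    D.geo a t i = D.geo b t i := by
  simp only [meet, at_one] at hi
  exact (gp_spec (D.tree t) (D.o t) (D.at' a t) (D.at' b t)).2.2.1 i hi

/-- The threaded product: `w⁻¹ z₁ c₁ z₁⁻¹ z₂ c₂ ⋯ z_k⁻¹ y`. -/
def val (y : Γ) : Γ → List Γ → List Γ → Γ
  | w, z :: zs, c :: cs => w⁻¹ * z * (c * val y z zs cs)
  | w, _, _ => w⁻¹ * y

/-- The markers avoid the two neighbouring directions and the one towards `e`. -/
def Threaded (C : Finset Γ) (e y : Γ) : Γ → List Γ → List Γ → Prop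
  | w, z :: zs, c :: cs => c ∈ C ∧ (∀ t, 1 ≤ D.len t c ∧ D.dir c t ≠ D.dir (w⁻¹ * z)⁻¹ t ∧
      D.dir c t ≠ D.dir (z⁻¹ * e) t ∧ D.dir c⁻¹ t ≠ D.dir (val y z zs cs) t ∧
      D.dir c t ≠ D.dir c⁻¹ t) ∧ Threaded C e y z zs cs
  | _, [], [] => True
  | _, _, _ => False

theorem exists_threaded {C : Finset Γ} (hC : D.IsMarkers C) (e y : Γ) :
    ∀ (zs : List Γ) (w : Γ), ∃ cs : List Γ, cs.length = zs.length ∧ D.Threaded C e y w zs cs
  | [], w => ⟨[], rfl, trivial⟩
  | z :: zs, w => by
      obtain ⟨cs, hcs, hth⟩ := exists_threaded hC e y zs z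
      obtain ⟨c, hc, h⟩ := hC (fun t => D.dir (w⁻¹ * z)⁻¹ t) (fun t => D.dir (z⁻¹ * e) t)
        (fun t => D.dir (val y z zs cs) t)
      exact ⟨c :: cs, by simp [hcs], hc, h, hth⟩

theorem mem_of_threaded {C : Finset Γ} {e y : Γ} : ∀ {zs cs : List Γ} {w : Γ},
    D.Threaded C e y w zs cs → ∀ c ∈ cs, c ∈ C
  | [], [], _, _ => by simp
  | z :: zs, c :: cs, w, h => by
      intro x hx
      rcases List.mem_cons.1 hx with rfl | hx
      · exact h.1
      · exact mem_of_threaded h.2.2 x hx
  | [], c :: cs, w, h => absurd h (by simp [Threaded])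
  | z :: zs, [], w, h => absurd h (by simp [Threaded])

/-- The lengths along a threaded product add. -/
theorem len_val {C : Finset Γ} {e y w z c : Γ} {zs cs : List Γ}
    (h : D.Threaded C e y w (z :: zs) (c :: cs)) (t : κ) :
    D.len t (c * val y z zs cs) = D.len t c + D.len t (val y z zs cs) ∧
      D.len t (val y w (z :: zs) (c :: cs)) = D.len t (w⁻¹ * z) + D.len t (c * val y z zs cs) := by
  obtain ⟨-, h, -⟩ := h
  obtain ⟨h1, h2, -, h4, -⟩ := h t
  have hcu := D.len_mul t c (val y z zs cs) (Or.inr (Or.inr h4))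
  refine ⟨hcu, D.len_mul t _ _ (Or.inr (Or.inr fun heq => h2 ?_))⟩
  rw [heq, dir, dir, D.geo_left t hcu h1]

theorem val_cons (y w z c : Γ) (zs cs : List Γ) :
    val y w (z :: zs) (c :: cs) = w⁻¹ * z * (c * val y z zs cs) := rfl

/-- Seen from `e`, the meets of consecutive points of the list do not increase. -/
def Descending (e : Γ) : List Γ → Prop
  | a :: b :: c :: zs => (∀ t, D.meet t e b c ≤ D.meet t e a b) ∧ Descending e (b :: c :: zs)
  | _ => True

/-- The last mark of a threaded product lies on its geodesic and tells the last point. -/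
theorem exists_suffix {C : Finset Γ} {e y : Γ} : ∀ (zs cs : List Γ) (w : Γ),
    D.Threaded C e y w zs cs → zs.getLast? = some e →
      ∃ g, val y w zs cs = g * (e⁻¹ * y) ∧
        ∀ t, D.len t (val y w zs cs) = D.len t g + D.len t (e⁻¹ * y)
  | [], _, _, _, h => absurd h (by simp)
  | z :: zs, [], w, h, _ => absurd h (by simp [Threaded])
  | [z], c :: cs, w, h, hl => by
      simp only [List.getLast?_singleton, Option.some.injEq] at hl
      subst hl
      have hcs : cs = [] := by
        cases cs with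
        | nil => rfl
        | cons => exact absurd h.2.2 (by simp [Threaded])
      subst hcs
      refine ⟨w⁻¹ * z * c, by simp [val, mul_assoc], fun t => ?_⟩
      obtain ⟨l1, l2⟩ := D.len_val h t
      have h3 := D.len_mul_le t (w⁻¹ * z) c
      have h4 := D.len_mul_le t (w⁻¹ * z * c) (z⁻¹ * y)
      have e1 : val y z [] [] = z⁻¹ * y := rfl
      have e2 : val y w [z] [c] = w⁻¹ * z * c * (z⁻¹ * y) := by simp [val, mul_assoc]
      rw [e1] at l1 l2
      rw [e2] at l2 ⊢
      omega
  | z :: z' :: zs, c :: cs, w, h, hl => by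
      obtain ⟨g, hg, hlen⟩ := exists_suffix (z' :: zs) cs z h.2.2 (by simpa using hl)
      refine ⟨w⁻¹ * z * (c * g), by rw [val_cons, hg]; group, fun t => ?_⟩
      obtain ⟨l1, l2⟩ := D.len_val h t
      have h3 := D.len_mul_le t (w⁻¹ * z) (c * g)
      have h4 := D.len_mul_le t (w⁻¹ * z * (c * g)) (e⁻¹ * y)
      have h5 := D.len_mul_le t c g
      rw [show w⁻¹ * z * (c * g) * (e⁻¹ * y) = val y w (z :: z' :: zs) (c :: cs) by
        rw [val_cons, hg]; group] at h4
      have := hlen t
      omega

variable [Fintype κ]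

open Classical in
/-- The elements on the geodesics towards a position. -/
noncomputable def between (B : ℕ) (v : Γ) : Finset Γ :=
  (D.ball B).filter fun g => ∀ t, D.geo v t (D.len t g) = D.at' g t

open Classical in
theorem card_between [DecidableEq κ] (B : ℕ) (v : Γ) :
    (D.between B v).card ≤ (B + 1) ^ Fintype.card κ := by
  refine (card_le_card_of_injOn (t := Fintype.piFinset fun _ : κ => Finset.range (B + 1))
    (fun g t => D.len t g) ?_ ?_).trans (by simp)
  · intro g hg
    refine mem_coe.2 (Fintype.mem_piFinset.2 fun t => mem_range.2 ?_)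
    have := D.mem_ball.1 (mem_filter.1 (mem_coe.1 hg)).1 t
    beta_reduce
    omega
  · intro g hg g' hg' h
    refine D.at_injective fun t => ?_
    rw [← (mem_filter.1 (mem_coe.1 hg)).2 t, ← (mem_filter.1 (mem_coe.1 hg')).2 t]
    exact congrArg (D.geo v t) (congrFun h t)

theorem mem_between {B : ℕ} {g h : Γ} (hB : ∀ t, D.len t g + D.len t h ≤ B)
    (hadd : ∀ t, D.len t (g * h) = D.len t g + D.len t h) : g ∈ D.between B (g * h) := by
  classical
  refine mem_filter.2 ⟨D.mem_ball.2 fun t => ?_, fun t => ?_⟩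
  · have := hB t; omega
  · rw [D.geo_left t (hadd t) le_rfl, geo]
    exact pt_dist (D.tree t) _ _

/-- The position where the product leaves the geodesic towards `e`. -/
noncomputable def drop (z e v : Γ) (t : κ) : ℕ := D.meet t 1 v (z⁻¹ * e)

open Classical in
/-- The possible next steps from the state `(z, v)`. -/
noncomputable def steps (C : Finset Γ) (B : ℕ) (e z v : Γ) : Finset (Γ × Γ) :=
  C.biUnion fun c => (insert (z⁻¹ * e) ((D.between B v).filter fun x =>
    (∀ t, D.drop z e v t ≤ D.len t x ∧ 1 ≤ D.len t c ∧ D.dir c t ≠ D.dir c⁻¹ t) ∧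
      Mirror D.perm D.o (fun t i => D.geo v t (D.drop z e v t + i)) c (fun t => D.len t c)
        fun t => D.len t x - D.drop z e v t)).image fun x => (x, c)

open Classical in
theorem card_steps (C : Finset Γ) {B K : ℕ} (hK : ∀ c ∈ C, ∀ t, D.len t c ≤ K) (e z v : Γ) :
    (D.steps C B e z v).card ≤
      C.card * (2 ^ Fintype.card κ * (16 * K + 1) ^ Fintype.card κ + 1) *
        (Nat.log 2 B + 1) ^ Fintype.card κ := by
  set m := Fintype.card κ
  rw [mul_assoc]
  refine card_biUnion_le.trans ((sum_le_card_nsmul _ _ _ fun c hc => ?_).trans_eq (smul_eq_mul _ _))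
  refine card_image_le.trans ((card_insert_le _ _).trans ?_)
  set A := (D.between B v).filter fun x =>
    (∀ t, D.drop z e v t ≤ D.len t x ∧ 1 ≤ D.len t c ∧ D.dir c t ≠ D.dir c⁻¹ t) ∧
      Mirror D.perm D.o (fun t i => D.geo v t (D.drop z e v t + i)) c (fun t => D.len t c)
        fun t => D.len t x - D.drop z e v t
  have hL : 1 ≤ (Nat.log 2 B + 1) ^ m := Nat.one_le_pow _ _ (Nat.succ_pos _)
  rcases A.eq_empty_or_nonempty with hA | ⟨x₀, hx₀⟩
  · simp only [hA, card_empty, zero_add]
    exact Nat.one_le_iff_ne_zero.2 (by positivity)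
  have hc1 := (mem_filter.1 hx₀).2.1
  set M := A.image fun x t => D.len t x - D.drop z e v t
  have hinj : A.card = M.card := by
    refine (card_image_of_injOn fun x hx x' hx' h => D.at_injective fun t => ?_).symm
    obtain ⟨hb, h1, -⟩ := mem_filter.1 (mem_coe.1 hx)
    obtain ⟨hb', h1', -⟩ := mem_filter.1 (mem_coe.1 hx')
    have e := congrFun h t
    have := (h1 t).1; have := (h1' t).1
    rw [← (mem_filter.1 hb).2 t, ← (mem_filter.1 hb').2 t,
      show D.len t x = D.len t x' by omega]
  have hM := card_mirrors D.perm (fun g x h => D.free g x h) D.o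
    (fun t i => D.geo v t (D.drop z e v t + i)) c (fun t => D.len t c) (fun t => (hc1 t).2.1)
    (fun t => D.sq_ne t c (hc1 t).2.1 (hc1 t).2.2) B M fun a ha => by
      obtain ⟨x, hx, rfl⟩ := mem_image.1 ha
      obtain ⟨hb, -, hm⟩ := mem_filter.1 hx
      refine ⟨hm, fun t => ?_⟩
      have := D.mem_ball.1 (mem_filter.1 hb).1 t
      beta_reduce
      omega
  have hprod : ∏ t, ((Nat.log 2 B + 1) * (16 * D.len t c))
      ≤ ((Nat.log 2 B + 1) * (16 * K + 1)) ^ m := by
    refine (prod_le_prod' fun t _ => ?_).trans_eq (by rw [prod_const, card_univ])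
    exact Nat.mul_le_mul le_rfl (by have := hK c hc t; omega)
  rw [mul_pow] at hprod
  have hfin := hinj.le.trans (hM.trans (Nat.mul_le_mul le_rfl hprod))
  nlinarith

/-- The next step of a threaded chain is among the steps. -/
theorem mem_steps {C : Finset Γ} {B : ℕ} {e y z z' c : Γ} {zs cs : List Γ}
    (hth : D.Threaded C e y z (z' :: zs) (c :: cs)) (hlast : (z' :: zs).getLast? = some e)
    (hflag : D.Descending e (z :: z' :: zs))
    (hB : ∀ t, D.len t (val y z (z' :: zs) (c :: cs)) ≤ B) :
    (z⁻¹ * z', c) ∈ D.steps C B e z (val y z (z' :: zs) (c :: cs)) := by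
  classical
  refine mem_biUnion.2 ⟨c, hth.1, mem_image.2 ⟨z⁻¹ * z', ?_, rfl⟩⟩
  cases zs with
  | nil =>
    simp only [List.getLast?_singleton, Option.some.injEq] at hlast
    rw [hlast]; exact mem_insert_self _ _
  | cons z'' zs =>
  refine mem_insert_of_mem ?_
  obtain ⟨c', cs, rfl⟩ : ∃ c' cs', cs = c' :: cs' := by
    cases cs with
    | nil => exact absurd hth.2.2 (by simp [Threaded])
    | cons c' cs' => exact ⟨c', cs', rfl⟩
  set x := z⁻¹ * z' with hx
  set u := val y z' (z'' :: zs) (c' :: cs) with hu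
  set v := val y z (z' :: z'' :: zs) (c :: c' :: cs) with hv
  have hvx : v = x * (c * u) := rfl
  have hc := hth.2.1
  have hlv : ∀ t, D.len t (x * (c * u)) = D.len t x + D.len t (c * u) := fun t => (D.len_val hth t).2
  have hlc : ∀ t, D.len t (c * u) = D.len t c + D.len t u := fun t => (D.len_val hth t).1
  have hbx : x ∈ D.between B v := by
    rw [hvx]
    refine D.mem_between (fun t => ?_) hlv
    rw [← hlv t]; exact hB t
  have hdrop : ∀ t, D.drop z e v t = D.meet t 1 x (z⁻¹ * e) := by
    intro t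
    obtain ⟨g1, g2, g3, g4, -⟩ :=
      gp_spec (D.tree t) (D.o t) (D.at' x t) (D.at' (z⁻¹ * e) t)
    have hδ : D.meet t 1 x (z⁻¹ * e) = gp (D.H t) (D.o t) (D.at' x t) (D.at' (z⁻¹ * e) t) := by
      simp [meet, at_one]
    rw [drop, hvx, meet, at_one, hδ]
    set δ := gp (D.H t) (D.o t) (D.at' x t) (D.at' (z⁻¹ * e) t)
    have g1' : δ ≤ D.len t x := g1
    refine gp_eq_of_ne (D.tree t) ?_ g2 ?_ ?_
    · show δ ≤ D.len t (x * (c * u))
      rw [hlv t]; omega
    · show D.geo (x * (c * u)) t δ = D.geo (z⁻¹ * e) t δ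
      rw [D.geo_left t (hlv t) g1']; exact g3 δ le_rfl
    · intro hlt1 hlt2
      show D.geo (x * (c * u)) t (δ + 1) ≠ D.geo (z⁻¹ * e) t (δ + 1)
      rcases lt_or_eq_of_le g1' with hlt | heq
      · rw [D.geo_left t (hlv t) hlt]
        intro h
        have := g4 (δ + 1) hlt hlt2 h
        omega
      · have hr : D.len t (x * (z'⁻¹ * e)) = D.len t x + D.len t (z'⁻¹ * e) := by
          have h5 := D.meet_spec t 1 x (z⁻¹ * e)
          rw [hδ, inv_one, one_mul, one_mul] at h5
          rw [show x⁻¹ * (z⁻¹ * e) = z'⁻¹ * e by simp only [hx]; group] at h5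
          rw [show x * (z'⁻¹ * e) = z⁻¹ * e by simp only [hx]; group]
          omega
        rw [show z⁻¹ * e = x * (z'⁻¹ * e) by simp only [hx]; group, heq, D.geo_right t (hlv t),
          D.geo_right t hr]
        intro h
        have h' := congrArg (D.act t x⁻¹) h
        rw [act_inv_act, act_inv_act] at h'
        rw [D.geo_left t (hlc t) (hc t).1] at h'
        exact (hc t).2.2.1 h'
  refine mem_filter.2 ⟨hbx, fun t => ⟨?_, (hc t).1, (hc t).2.2.2.2⟩, x, fun t => ?_, fun t i hi => ?_⟩
  · rw [hdrop t]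
    have := (gp_spec (D.tree t) (D.at' 1 t) (D.at' x t) (D.at' (z⁻¹ * e) t)).1
    rwa [dist_at, inv_one, one_mul] at this
  · have hle : D.drop z e v t ≤ D.len t x := by
      rw [hdrop t]
      have := (gp_spec (D.tree t) (D.at' 1 t) (D.at' x t) (D.at' (z⁻¹ * e) t)).1
      rwa [dist_at, inv_one, one_mul] at this
    show D.act t x (D.o t) = D.geo v t (D.drop z e v t + (D.len t x - D.drop z e v t))
    rw [Nat.add_sub_cancel' hle, hvx, D.geo_left t (hlv t) le_rfl, geo]
    exact (pt_dist (D.tree t) _ _).symm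
  · have hle : D.drop z e v t ≤ D.len t x := by
      rw [hdrop t]
      have := (gp_spec (D.tree t) (D.at' 1 t) (D.at' x t) (D.at' (z⁻¹ * e) t)).1
      rwa [dist_at, inv_one, one_mul] at this
    beta_reduce at hi
    have hix : i ≤ D.len t x := by omega
    show D.act t (x * c * x⁻¹)
        (D.geo v t (D.drop z e v t + (D.len t x - D.drop z e v t - i))) =
      D.geo v t (D.drop z e v t + (D.len t x - D.drop z e v t + D.len t c + i))
    rw [show D.drop z e v t + (D.len t x - D.drop z e v t - i) = D.len t x - i by omega,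
      show D.drop z e v t + (D.len t x - D.drop z e v t + D.len t c + i)
        = D.len t x + (D.len t c + i) by omega,
      hvx, D.geo_left t (hlv t) (Nat.sub_le _ _), D.geo_right t (hlv t), D.geo_right t (hlc t),
      act_mul, act_mul, ← D.geo_inv t x hix]
    congr 2
    -- the ascent is retraced by the next step
    have hlu : D.len t u = D.len t (z'⁻¹ * z'') + D.len t (c' * val y z'' zs cs) :=
      (D.len_val hth.2.2 t).2
    have hm : i ≤ D.meet t 1 x⁻¹ (z'⁻¹ * z'') := by
      have hz := hflag.1 t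
      have a1 := D.meet_spec t 1 x⁻¹ (z'⁻¹ * z'')
      have a2 := D.meet_spec t 1 x (z⁻¹ * e)
      have a3 := D.meet_spec t e z z'
      have a4 := D.meet_spec t e z' z''
      have a5 := D.meet_spec t z' z z''
      have a6 := D.meet_spec t z' z e
      have a7 := D.meet_spec t z' e z''
      have hmin : min (D.meet t z' z e) (D.meet t z' e z'') ≤ D.meet t z' z z'' :=
        gp_min (D.tree t) _ _ _ _
      rw [hdrop t] at hi
      simp only [hx, inv_one, one_mul, mul_inv_rev, inv_inv, mul_assoc, mul_inv_cancel_left]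
        at a1 a2 a3 a4 a5 a6 a7 hi hix ⊢
      have s1 : D.len t (z'⁻¹ * z) = D.len t (z⁻¹ * z') := by
        rw [← D.len_inv t (z⁻¹ * z')]; simp
      have s2 : D.len t (z⁻¹ * e) = D.len t (e⁻¹ * z) := by
        rw [← D.len_inv t (e⁻¹ * z)]; simp
      have s3 : D.len t (z'⁻¹ * e) = D.len t (e⁻¹ * z') := by
        rw [← D.len_inv t (e⁻¹ * z')]; simp
      omega
    rw [D.geo_eq_of_meet t _ _ hm, hu, val_cons]
    refine (D.geo_left t hlu ?_).symm
    have := (gp_spec (D.tree t) (D.at' 1 t) (D.at' x⁻¹ t) (D.at' (z'⁻¹ * z'') t)).2.1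
    rw [dist_at, inv_one, one_mul] at this
    exact hm.trans this

open Classical in
/-- The chains that may follow the state `(z, v)`. -/
noncomputable def readings (C : Finset Γ) (B : ℕ) (e : Γ) : ℕ → Γ → Γ → Finset (List Γ)
  | 0, _, _ => {[]}
  | k + 1, z, v => (D.steps C B e z v).biUnion fun q =>
      (readings C B e k (z * q.1) ((q.1 * q.2)⁻¹ * v)).image fun l => z * q.1 :: l

open Classical in
theorem card_readings (C : Finset Γ) {B K : ℕ} (hK : ∀ c ∈ C, ∀ t, D.len t c ≤ K) (e : Γ) :
    ∀ (k : ℕ) (z v : Γ), (D.readings C B e k z v).card ≤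
      (C.card * (2 ^ Fintype.card κ * (16 * K + 1) ^ Fintype.card κ + 1) *
        (Nat.log 2 B + 1) ^ Fintype.card κ) ^ k
  | 0, z, v => by simp [readings]
  | k + 1, z, v => by
      rw [readings, pow_succ']
      refine card_biUnion_le.trans ((sum_le_card_nsmul _ _ _ fun q _ =>
        card_image_le.trans (card_readings C hK e k _ _)).trans ?_)
      rw [smul_eq_mul]
      exact Nat.mul_le_mul_right _ (D.card_steps C hK e z v)

theorem mem_readings {C : Finset Γ} {B : ℕ} {e y : Γ} : ∀ (zs cs : List Γ) (z : Γ),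
    D.Threaded C e y z zs cs → (zs ≠ [] → zs.getLast? = some e) → D.Descending e (z :: zs) →
      (∀ t, D.len t (val y z zs cs) ≤ B) →
        zs ∈ D.readings C B e zs.length z (val y z zs cs)
  | [], [], z, _, _, _, _ => by simp [readings]
  | [], c :: cs, z, h, _, _, _ => absurd h (by simp [Threaded])
  | z' :: zs, [], z, h, _, _, _ => absurd h (by simp [Threaded])
  | z' :: zs, c :: cs, z, h, hlast, hflag, hB => by
      classical
      rw [List.length_cons, readings]
      refine mem_biUnion.2 ⟨_, D.mem_steps h (hlast (by simp)) hflag hB, mem_image.2 ⟨zs, ?_, ?_⟩⟩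
      · rw [mul_inv_cancel_left,
          show (z⁻¹ * z' * c)⁻¹ * val y z (z' :: zs) (c :: cs) = val y z' zs cs by
            rw [val_cons]; group]
        refine mem_readings zs cs z' h.2.2 (fun hne => ?_) ?_ fun t => ?_
        · have := hlast (by simp)
          rwa [List.getLast?_cons_of_ne_nil hne] at this
        · cases zs with
          | nil => trivial
          | cons _ _ => exact hflag.2
        · obtain ⟨l1, l2⟩ := D.len_val h t
          have := hB t
          omega
      · rw [mul_inv_cancel_left]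

open Classical in
/-- All chains of length `k + 1` that may give the product `h`. -/
noncomputable def preimages (C : Finset Γ) (B k : ℕ) (y h : Γ) : Finset (List Γ) :=
  (D.between B h).biUnion fun g => (D.between B h).biUnion fun z => C.biUnion fun c =>
    (D.readings C B (y * h⁻¹ * g) k z ((z * c)⁻¹ * h)).image fun l => z :: l

open Classical in
theorem card_preimages [DecidableEq κ] (C : Finset Γ) {B K : ℕ}
    (hK : ∀ c ∈ C, ∀ t, D.len t c ≤ K) (k : ℕ) (y h : Γ) :
    (D.preimages C B k y h).card ≤ ((B + 1) ^ Fintype.card κ) ^ 2 * C.card *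
      (C.card * (2 ^ Fintype.card κ * (16 * K + 1) ^ Fintype.card κ + 1) *
        (Nat.log 2 B + 1) ^ Fintype.card κ) ^ k := by
  rw [sq, mul_assoc, mul_assoc]
  refine card_biUnion_le.trans ((sum_le_card_nsmul _ _ _ fun g _ => ?_).trans
    ((smul_eq_mul _ _).le.trans (Nat.mul_le_mul_right _ (D.card_between B h))))
  refine card_biUnion_le.trans ((sum_le_card_nsmul _ _ _ fun z _ => ?_).trans
    ((smul_eq_mul _ _).le.trans (Nat.mul_le_mul_right _ (D.card_between B h))))
  refine card_biUnion_le.trans ((sum_le_card_nsmul _ _ _ fun c _ => ?_).trans (smul_eq_mul _ _).le)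
  exact card_image_le.trans (D.card_readings C hK _ k z _)

theorem mem_preimages {C : Finset Γ} {B : ℕ} {y : Γ} {z : Γ} {zs cs : List Γ} {e : Γ}
    (hth : D.Threaded C e y 1 (z :: zs) cs) (hlast : (z :: zs).getLast? = some e)
    (hflag : D.Descending e (z :: zs)) (hB : ∀ t, D.len t (val y 1 (z :: zs) cs) ≤ B) :
    z :: zs ∈ D.preimages C B zs.length y (val y 1 (z :: zs) cs) := by
  classical
  cases cs with
  | nil => exact absurd hth (by simp [Threaded])
  | cons c cs =>
  obtain ⟨g, hg, hlen⟩ := D.exists_suffix _ _ _ hth hlast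
  set h := val y 1 (z :: zs) (c :: cs) with hh
  have he : y * h⁻¹ * g = e := by rw [hg]; group
  have hgm : g ∈ D.between B h := by
    rw [hg]
    refine D.mem_between (fun t => ?_) (fun t => by rw [← hg]; exact hlen t)
    rw [← hlen t]; exact hB t
  have hhz : h = z * (c * val y z zs cs) := by rw [hh, val_cons]; simp
  have hl : ∀ t, D.len t h = D.len t z + D.len t (c * val y z zs cs) := fun t => by
    have := (D.len_val hth t).2
    rw [inv_one, one_mul] at this
    exact this
  have hzm : z ∈ D.between B h := by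
    rw [hhz]
    refine D.mem_between (fun t => ?_) (fun t => by rw [← hhz]; exact hl t)
    rw [← hl t]; exact hB t
  refine mem_biUnion.2 ⟨g, hgm, mem_biUnion.2 ⟨z, hzm, mem_biUnion.2 ⟨c, hth.1,
    mem_image.2 ⟨zs, ?_, rfl⟩⟩⟩⟩
  rw [he, show (z * c)⁻¹ * h = val y z zs cs by rw [hhz]; group]
  refine D.mem_readings zs cs z hth.2.2 (fun hne => ?_) hflag fun t => ?_
  · rwa [List.getLast?_cons_of_ne_nil hne] at hlast
  · have h1 := (D.len_val hth t).1
    have := hB t
    have := hl t
    omega

omit [Fintype κ] in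
/-- The list form of `Flag`. -/
theorem descending_of (e : Γ) : ∀ l : List Γ,
    (∀ (t : κ) (i : ℕ), ∀ a ∈ l[i]?, ∀ b ∈ l[i + 1]?, ∀ c ∈ l[i + 2]?,
      D.meet t e b c ≤ D.meet t e a b) → D.Descending e l
  | [], _ => trivial
  | [_], _ => trivial
  | [_, _], _ => trivial
  | a :: b :: c :: zs, h => ⟨fun t => h t 0 a (by simp) b (by simp) c (by simp),
      descending_of e (b :: c :: zs) fun t i x hx y hy z hz =>
        h t (i + 1) x (by simpa using hx) y (by simpa using hy) z (by simpa using hz)⟩

end TreeAct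

end Vale.Agent.P165.TL
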