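import Vale.Agent.P165.TL.Setup

/-!
# Products of trees: Haagerup's inequality

If `a` is in the ball of radius `R` then, up to `(R + 1) ^ (2 m)` classes, the median of the
positions of `1`, `a` and `g` splits `g` into a part read from `a` and a part read from `a⁻¹ * g`.
-/

namespace Vale.Agent.P165.TL

open Finset

variable {κ Γ : Type} [Group Γ] (D : TreeAct κ Γ)

namespace TreeAct

/-- The orbit of a representative contains a vertex. -/
def Hits (x r : ∀ t, D.V t) : Prop := r ∈ D.reps ∧ ∃ g, ∀ t, D.act t g (r t) = x t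

theorem exists_hits (x : ∀ t, D.V t) : ∃ r, D.Hits x r :=
  let ⟨g, r, hr, h⟩ := D.cover x
  ⟨r, hr, g, h⟩

/-- The representative of the orbit of a vertex. -/
noncomputable def rep (x : ∀ t, D.V t) : ∀ t, D.V t :=
  @Classical.epsilon _ ⟨D.o⟩ (D.Hits x)

/-- The group element taking the representative of its orbit to a vertex. -/
noncomputable def elem (x : ∀ t, D.V t) : Γ :=
  @Classical.epsilon _ ⟨1⟩ fun g => ∀ t, D.act t g (D.rep x t) = x t

theorem act_elem (x : ∀ t, D.V t) (t : κ) : D.act t (D.elem x) (D.rep x t) = x t :=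
  Classical.epsilon_spec (p := fun g => ∀ t, D.act t g (D.rep x t) = x t)
    (Classical.epsilon_spec (D.exists_hits x)).2 t

theorem rep_act (a : Γ) (x : ∀ t, D.V t) : D.rep (fun t => D.act t a (x t)) = D.rep x := by
  have h : D.Hits (fun t => D.act t a (x t)) = D.Hits x := by
    funext r
    refine propext ⟨fun ⟨hr, g, hg⟩ => ⟨hr, a⁻¹ * g, fun t => ?_⟩,
      fun ⟨hr, g, hg⟩ => ⟨hr, a * g, fun t => ?_⟩⟩
    · rw [act_mul, hg t, act_inv_act]
    · rw [act_mul, hg t]
  simp only [rep, h]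

theorem elem_act (a : Γ) (x : ∀ t, D.V t) :
    D.elem (fun t => D.act t a (x t)) = a * D.elem x := by
  refine inv_mul_eq_one.1 (D.free _ (D.rep x) fun t => ?_)
  have h := D.act_elem (fun t => D.act t a (x t)) t
  rw [rep_act] at h
  show D.act t _ _ = _
  rw [act_mul, show D.act t (a * D.elem x) (D.rep x t) =
    D.act t (D.elem fun t => D.act t a (x t)) (D.rep x t) by rw [h, act_mul, act_elem],
    act_inv_act]

variable [Fintype κ] [DecidableEq Γ]

theorem haagerup_free (R : ℕ) (A B : Finset Γ) (hA : A ⊆ D.ball R) (f h : Γ → ℝ)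
    (out : Finset Γ) :
    ∑ g ∈ out, (∑ a ∈ A.filter (fun a => a⁻¹ * g ∈ B), f a * h (a⁻¹ * g)) ^ 2 ≤
      ((R : ℝ) + 1) ^ (4 * Fintype.card κ) * (∑ a ∈ A, f a ^ 2) * ∑ b ∈ B, h b ^ 2 := by
  classical
  set l : Γ → Γ → κ → ℕ × ℕ := fun g a t =>
    (D.meet t 1 a g, D.len t a - D.meet t 1 a g) with hl
  set K : Finset (κ → ℕ × ℕ) :=
    Fintype.piFinset fun _ => Finset.range (R + 1) ×ˢ Finset.range (R + 1) with hK
  set F : (κ → ℕ × ℕ) → Γ → Finset Γ :=
    fun k g => (A.filter fun a => a⁻¹ * g ∈ B).filter fun a => l g a = k with hF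
  -- the median seen from `1` and from `a`
  set P : (κ → ℕ × ℕ) → Γ → Γ := fun k a => D.elem fun t => D.geo a t (k t).1 with hP
  set S : (κ → ℕ × ℕ) → Γ → Γ :=
    fun k b => (D.elem fun t => D.geo b t (k t).2)⁻¹ * b with hS
  have hcard : (K.card : ℝ) = ((R : ℝ) + 1) ^ (2 * Fintype.card κ) := by
    simp [hK, Fintype.card_piFinset, pow_mul, sq]
  have hsplit : ∀ k g, ∀ a ∈ F k g, P k a = P k g ∧ S k (a⁻¹ * g) = (P k g)⁻¹ * g := by
    intro k g a ha
    obtain ⟨-, rfl⟩ := Finset.mem_filter.1 ha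
    have key : ∀ t, D.geo a t (D.meet t 1 a g) = D.geo g t (D.meet t 1 a g) ∧
        D.act t a⁻¹ (D.geo g t (D.meet t 1 a g)) =
          D.geo (a⁻¹ * g) t (D.len t a - D.meet t 1 a g) := by
      intro t
      have hT := D.tree t
      simp only [meet, at_one, geo, len]
      set u := D.o t
      set va := D.at' a t
      set vg := D.at' g t
      obtain ⟨h1, h2, h3, -, h5⟩ := gp_spec hT u va vg
      set i := gp (D.H t) u va vg
      refine ⟨h3 i le_rfl, ?_⟩
      set x := pt (D.H t) u vg i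
      have e1 : (D.H t).dist va x = (D.H t).dist u va - i := by
        have := (dist_pt hT h1).2
        rw [h3 i le_rfl] at this
        rw [SimpleGraph.dist_comm]; exact this
      have e2 : (D.H t).dist x vg = (D.H t).dist u vg - i := (dist_pt hT h2).2
      have hx := eq_pt_of_between hT (u := va) (v := vg) (x := x) (by omega)
      rw [e1] at hx
      rw [at_mul, ← hx, ← D.pt_act t a⁻¹]
      congr 1
      exact D.act_inv_act t a _
    have e1 : P (l g a) a = P (l g a) g := by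
      simp only [hP]
      congr 1
      funext t
      exact (key t).1
    refine ⟨e1, ?_⟩
    have e2 : (fun t => D.geo (a⁻¹ * g) t (l g a t).2) =
        fun t => D.act t a⁻¹ (D.geo g t (l g a t).1) := funext fun t => (key t).2.symm
    simp only [hS, hP, e2, elem_act]
    group
  have hclass : ∀ k, ∑ g ∈ out, (∑ a ∈ F k g, f a * h (a⁻¹ * g)) ^ 2 ≤
      (∑ a ∈ A, f a ^ 2) * ∑ b ∈ B, h b ^ 2 := by
    intro k
    calc ∑ g ∈ out, (∑ a ∈ F k g, f a * h (a⁻¹ * g)) ^ 2
        ≤ ∑ g ∈ out, ∑ q ∈ A ×ˢ B,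
            if P k q.1 = P k g ∧ S k q.2 = (P k g)⁻¹ * g then f q.1 ^ 2 * h q.2 ^ 2 else 0 := by
          refine Finset.sum_le_sum fun g _ => ?_
          refine (Finset.sum_mul_sq_le_sq_mul_sq _ _ _).trans ?_
          rw [← Finset.sum_filter, ← Finset.sum_image (f := fun b => h b ^ 2)
            (g := fun a => a⁻¹ * g) (fun a _ a' _ e => inv_injective (mul_right_cancel e)),
            Finset.sum_mul_sum, ← Finset.sum_product']
          refine Finset.sum_le_sum_of_subset_of_nonneg (fun q hq => ?_) fun _ _ _ => by positivity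
          obtain ⟨ha, hb⟩ := Finset.mem_product.1 hq
          obtain ⟨a', ha', he⟩ := Finset.mem_image.1 hb
          have h1 := (Finset.mem_filter.1 (Finset.mem_filter.1 ha).1).1
          have h2 := (Finset.mem_filter.1 (Finset.mem_filter.1 ha').1).2
          refine Finset.mem_filter.2 ⟨Finset.mem_product.2 ⟨h1, he ▸ h2⟩, (hsplit k g _ ha).1, ?_⟩
          rw [← he]
          exact (hsplit k g _ ha').2
      _ = ∑ q ∈ A ×ˢ B, ((out.filter fun g => P k q.1 = P k g ∧ S k q.2 = (P k g)⁻¹ * g).card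
            : ℝ) * (f q.1 ^ 2 * h q.2 ^ 2) := by
          rw [Finset.sum_comm]
          refine Finset.sum_congr rfl fun q _ => ?_
          rw [← Finset.sum_filter, Finset.sum_const, nsmul_eq_mul]
      _ ≤ ∑ q ∈ A ×ˢ B, 1 * (f q.1 ^ 2 * h q.2 ^ 2) := by
          refine Finset.sum_le_sum fun q _ => mul_le_mul_of_nonneg_right ?_ (by positivity)
          norm_cast
          refine Finset.card_le_one.2 fun g hg g' hg' => ?_
          simp only [Finset.mem_filter] at hg hg'
          have e := hg.2.2.symm.trans hg'.2.2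
          rw [← hg.2.1, ← hg'.2.1] at e
          exact mul_left_cancel e
      _ = _ := by simp only [one_mul]; rw [Finset.sum_mul_sum, Finset.sum_product]
  have hmaps : ∀ g, ∀ a ∈ A.filter (fun a => a⁻¹ * g ∈ B), l g a ∈ K := by
    intro g a ha
    simp only [hK, Fintype.mem_piFinset, Finset.mem_product, Finset.mem_range, hl]
    intro t
    have h1 : D.len t a ≤ R := D.mem_ball.1 (hA (Finset.mem_filter.1 ha).1) t
    have h2 : D.meet t 1 a g ≤ D.len t a := by
      simp only [meet, at_one, len]; exact (gp_spec (D.tree t) _ _ _).1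
    omega
  calc ∑ g ∈ out, (∑ a ∈ A.filter (fun a => a⁻¹ * g ∈ B), f a * h (a⁻¹ * g)) ^ 2
      = ∑ g ∈ out, (∑ k ∈ K, ∑ a ∈ F k g, f a * h (a⁻¹ * g)) ^ 2 := by
        refine Finset.sum_congr rfl fun g _ => ?_
        rw [Finset.sum_fiberwise_of_maps_to (hmaps g)]
    _ ≤ ∑ g ∈ out, (K.card : ℝ) * ∑ k ∈ K, (∑ a ∈ F k g, f a * h (a⁻¹ * g)) ^ 2 :=
        Finset.sum_le_sum fun g _ => sq_sum_le_card_mul_sum_sq
    _ = (K.card : ℝ) * ∑ k ∈ K, ∑ g ∈ out, (∑ a ∈ F k g, f a * h (a⁻¹ * g)) ^ 2 := by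
        rw [← Finset.mul_sum, Finset.sum_comm]
    _ ≤ (K.card : ℝ) * ∑ _k ∈ K, (∑ a ∈ A, f a ^ 2) * ∑ b ∈ B, h b ^ 2 :=
        mul_le_mul_of_nonneg_left (Finset.sum_le_sum fun k _ => hclass k) (Nat.cast_nonneg _)
    _ = _ := by
        rw [Finset.sum_const, nsmul_eq_mul, hcard,
          show 4 * Fintype.card κ = 2 * Fintype.card κ + 2 * Fintype.card κ by ring, pow_add]
        ring

omit [Fintype κ] [DecidableEq Γ] in
theorem one_le_card_reps : (1 : ℝ) ≤ (D.reps.card : ℝ) := by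
  obtain ⟨-, r, hr, -⟩ := D.cover D.o
  exact_mod_cast Finset.card_pos.2 ⟨r, hr⟩

/-- Haagerup's inequality for a group acting freely and cofinitely on a product of trees. -/
theorem haagerup (R : ℕ) (A B : Finset Γ) (hA : A ⊆ D.ball R) (f h : Γ → ℝ) (out : Finset Γ) :
    ∑ g ∈ out, (∑ a ∈ A.filter (fun a => a⁻¹ * g ∈ B), f a * h (a⁻¹ * g)) ^ 2 ≤
      (D.reps.card : ℝ) ^ 2 * ((R : ℝ) + 1) ^ (4 * Fintype.card κ) * (∑ a ∈ A, f a ^ 2) *
        ∑ b ∈ B, h b ^ 2 := by
  refine (D.haagerup_free R A B hA f h out).trans ?_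
  refine mul_le_mul_of_nonneg_right (mul_le_mul_of_nonneg_right ?_
    (sum_nonneg fun _ _ => sq_nonneg _)) (sum_nonneg fun _ _ => sq_nonneg _)
  exact le_mul_of_one_le_left (by positivity) (one_le_pow₀ D.one_le_card_reps)

end TreeAct

end Vale.Agent.P165.TL
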