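import Vale.Agent.P165.TL.Tree
import Vale.Agent.P165.TL.Candidates
import Vale.Agent.P165.FF.Sub

/-!
# Groups acting freely and cofinitely on a product of trees: definitions
-/

namespace Vale.Agent.P165.TL

open Finset

/-- A free cofinite action of `Γ` on the vertices of a product of locally finite trees of minimal
degree at least three, with a base vertex. -/
structure TreeAct (κ Γ : Type) [Group Γ] where
  /-- The vertices of the trees. -/
  V : κ → Type
  /-- The trees. -/
  H : ∀ t, SimpleGraph (V t)
  tree : ∀ t, (H t).IsTree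
  nbhd : ∀ t x, ((H t).neighborSet x).Finite
  deg : ∀ t x, 3 ≤ ((H t).neighborSet x).ncard
  /-- The actions. -/
  φ : ∀ t, Γ →* (H t ≃g H t)
  free : ∀ (g : Γ) (x : ∀ t, V t), (∀ t, φ t g (x t) = x t) → g = 1
  /-- The base vertex. -/
  o : ∀ t, V t
  /-- Representatives of the orbits. -/
  reps : Finset (∀ t, V t)
  cover : ∀ x : ∀ t, V t, ∃ g, ∃ r ∈ reps, ∀ t, φ t g (r t) = x t

variable {κ Γ : Type} [Group Γ] (D : TreeAct κ Γ)

namespace TreeAct

/-- The action as a homomorphism to permutations. -/
def perm (t : κ) : Γ →* Equiv.Perm (D.V t) where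
  toFun g := (D.φ t g).toEquiv
  map_one' := by rw [map_one]; rfl
  map_mul' g h := by rw [map_mul]; rfl

/-- The image of a vertex. -/
def act (t : κ) (g : Γ) (x : D.V t) : D.V t := D.φ t g x

/-- The position of a group element. -/
def at' (g : Γ) (t : κ) : D.V t := D.act t g (D.o t)

/-- The displacement of the base vertex in one coordinate. -/
noncomputable def len (t : κ) (g : Γ) : ℕ := (D.H t).dist (D.o t) (D.at' g t)

/-- The vertex at distance `i` on the geodesic from the base vertex to a position. -/
noncomputable def geo (g : Γ) (t : κ) (i : ℕ) : D.V t := pt (D.H t) (D.o t) (D.at' g t) i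

/-- The first vertex after the base vertex towards a position. -/
noncomputable def dir (g : Γ) (t : κ) : D.V t := D.geo g t 1

/-- The common part of the geodesics from the position of `d` to those of `a` and `b`. -/
noncomputable def meet (t : κ) (d a b : Γ) : ℕ :=
  gp (D.H t) (D.at' d t) (D.at' a t) (D.at' b t)

theorem act_mul (t : κ) (g h : Γ) (x : D.V t) : D.act t (g * h) x = D.act t g (D.act t h x) := by
  simp only [act, map_mul]; rfl

theorem act_one (t : κ) (x : D.V t) : D.act t 1 x = x := by
  simp only [act, map_one]; rfl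

theorem at_mul (g h : Γ) (t : κ) : D.at' (g * h) t = D.act t g (D.at' h t) := D.act_mul t g h _

theorem at_one (t : κ) : D.at' 1 t = D.o t := D.act_one t _

theorem act_inv_act (t : κ) (g : Γ) (x : D.V t) : D.act t g⁻¹ (D.act t g x) = x := by
  rw [← act_mul, inv_mul_cancel, act_one]

theorem dist_act (t : κ) (g : Γ) (x y : D.V t) :
    (D.H t).dist (D.act t g x) (D.act t g y) = (D.H t).dist x y :=
  dist_map (D.tree t) (D.tree t) (D.φ t g) x y

theorem pt_act (t : κ) (g : Γ) (x y : D.V t) (i : ℕ) :
    pt (D.H t) (D.act t g x) (D.act t g y) i = D.act t g (pt (D.H t) x y i) :=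
  pt_map (D.tree t) (D.tree t) (D.φ t g) x y i

theorem dist_at (t : κ) (g h : Γ) :
    (D.H t).dist (D.at' g t) (D.at' h t) = D.len t (g⁻¹ * h) := by
  rw [len, at_mul, ← D.dist_act t g⁻¹]
  congr 1
  exact D.act_inv_act t g _

theorem len_one (t : κ) : D.len t 1 = 0 := by rw [len, at_one, SimpleGraph.dist_self]

theorem len_inv (t : κ) (g : Γ) : D.len t g⁻¹ = D.len t g := by
  have h := D.dist_at t g 1
  rw [mul_one, at_one, SimpleGraph.dist_comm] at h
  exact h.symm

theorem len_mul_le (t : κ) (g h : Γ) : D.len t (g * h) ≤ D.len t g + D.len t h := by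
  have := (D.tree t).connected.dist_triangle (u := D.o t) (v := D.at' g t) (w := D.at' (g * h) t)
  rw [dist_at, inv_mul_cancel_left] at this
  exact this

theorem at_injective {g h : Γ} (e : ∀ t, D.at' g t = D.at' h t) : g = h := by
  refine (inv_mul_eq_one.1 (D.free (g⁻¹ * h) D.o fun t => ?_))
  show D.act t (g⁻¹ * h) (D.o t) = D.o t
  rw [act_mul, show D.act t h (D.o t) = D.act t g (D.o t) from (e t).symm, act_inv_act]

theorem finite_dist_le (t : κ) (x : D.V t) : ∀ n : ℕ, {y | (D.H t).dist x y ≤ n}.Finite
  | 0 => (Set.finite_singleton x).subset fun y hy => by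
      simp only [Set.mem_ofPred_eq, Nat.le_zero] at hy
      exact ((D.tree t).connected.dist_eq_zero_iff.1 hy).symm
  | n + 1 => by
      refine ((finite_dist_le t x n).union
        ((finite_dist_le t x n).biUnion fun z _ => D.nbhd t z)).subset fun y hy => ?_
      simp only [Set.mem_ofPred_eq] at hy
      by_cases h : (D.H t).dist x y ≤ n
      · exact Or.inl h
      · refine Or.inr (Set.mem_iUnion₂.2 ⟨pt (D.H t) x y n, ?_, ?_⟩)
        · simp only [Set.mem_ofPred_eq]; rw [(dist_pt (D.tree t) (by omega)).1]
        · have := adj_pt (D.tree t) (u := x) (v := y) (i := n) (by omega)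
          rwa [show n + 1 = (D.H t).dist x y by omega, pt_dist (D.tree t)] at this

theorem finite_ball [Finite κ] (R : ℕ) : {g : Γ | ∀ t, D.len t g ≤ R}.Finite :=
  ((Set.Finite.pi fun t => D.finite_dist_le t (D.o t) R).preimage
    (f := fun g t => D.at' g t) fun _ _ _ _ h => D.at_injective (congrFun h)).subset
    fun _ hg t _ => hg t

/-- Lengths add when the two directions at the middle position differ. -/
theorem len_mul (t : κ) (g h : Γ)
    (hne : D.len t g = 0 ∨ D.len t h = 0 ∨ D.dir g⁻¹ t ≠ D.dir h t) :
    D.len t (g * h) = D.len t g + D.len t h := by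
  have e := dist_of_ne (D.tree t) (u := D.o t) (a := D.at' g⁻¹ t) (b := D.at' h t)
    (by rcases hne with h' | h' | h'
        · exact Or.inl (by rw [← D.len_inv t g] at h'; exact h')
        · exact Or.inr (Or.inl h')
        · exact Or.inr (Or.inr h'))
  rw [dist_at, inv_inv] at e
  rw [← e, SimpleGraph.dist_comm, ← D.len_inv t g]
  rfl

/-- A marker with distinct end directions moves the base vertex twice. -/
theorem sq_ne (t : κ) (c : Γ) (h1 : 1 ≤ D.len t c) (hne : D.dir c t ≠ D.dir c⁻¹ t) :
    D.at' (c * c) t ≠ D.o t := fun h => by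
  have e := D.len_mul t c c (Or.inr (Or.inr hne.symm))
  rw [show D.len t (c * c) = 0 by rw [len, h, SimpleGraph.dist_self]] at e
  omega

/-- Among five points in order, one quadruple has nonincreasing meets seen from its last point. -/
theorem meet_five (t : κ) (a b c d e : Γ) :
    D.meet t d b c ≤ D.meet t d a b ∨ D.meet t e c d ≤ D.meet t e a c ∨
      D.meet t e c d ≤ D.meet t e b c := by
  simp only [meet]
  generalize D.at' a t = a, D.at' b t = b, D.at' c t = c, D.at' d t = d, D.at' e t = e
  have hT := D.tree t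
  have g := fun u v w => (gp_spec hT u v w).2.2.2.2
  have := gp_min hT d a c b
  have := gp_min hT d a b c
  have := gp_min hT e a c d
  have := gp_min hT e a d c
  have := gp_min hT e b c d
  have := gp_min hT e b d c
  have := g d a b; have := g d b c; have := g d a c
  have := g e a c; have := g e c d; have := g e a d
  have := g e b c; have := g e b d
  have := gp_comm hT d c b; have := gp_comm hT e d c
  simp only [SimpleGraph.dist_comm (u := d) (v := a), SimpleGraph.dist_comm (u := d) (v := b),
    SimpleGraph.dist_comm (u := d) (v := c), SimpleGraph.dist_comm (u := e) (v := a),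
    SimpleGraph.dist_comm (u := e) (v := b), SimpleGraph.dist_comm (u := e) (v := c),
    SimpleGraph.dist_comm (u := e) (v := d)] at *
  omega

variable [Fintype κ]

/-- The elements moving the base vertex at most `R` in every coordinate. -/
noncomputable def ball (R : ℕ) : Finset Γ := (D.finite_ball R).toFinset

theorem mem_ball {R : ℕ} {g : Γ} : g ∈ D.ball R ↔ ∀ t, D.len t g ≤ R :=
  Set.Finite.mem_toFinset _

theorem ball_mono {R R' : ℕ} (h : R ≤ R') : D.ball R ⊆ D.ball R' := fun _ hg =>
  D.mem_ball.2 fun t => (D.mem_ball.1 hg t).trans h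

variable {O ι : Type} [DecidableEq Γ] [DecidableEq O] [Fintype O] [Fintype ι]

/-- The vertices over `ball n`. -/
noncomputable def cyl (n : ℕ) : Finset (Γ × O) := D.ball n ×ˢ univ

omit [DecidableEq Γ] [DecidableEq O] in
theorem mem_cyl {n : ℕ} {x : Γ × O} :
    x ∈ (D.cyl n : Finset (Γ × O)) ↔ ∀ t, D.len t x.1 ≤ n := by
  simp [cyl, mem_ball]

/-- Finitely many markers, with prescribed directions to avoid at both ends. -/
def IsMarkers (C : Finset Γ) : Prop :=
  ∀ a a' b : ∀ t, D.V t, ∃ c ∈ C, ∀ t, 1 ≤ D.len t c ∧ D.dir c t ≠ a t ∧ D.dir c t ≠ a' t ∧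
    D.dir c⁻¹ t ≠ b t ∧ D.dir c t ≠ D.dir c⁻¹ t

/-- The open exits from a cylinder, summed over base vertices, by the group part of their ends. -/
noncomputable def kernelB (nb : Γ × O → ι → Γ × O) (n : ℕ) (p : ℝ) (g : Γ) : ℝ :=
  p * ∑ o : O, ∑ a ∈ (D.cyl n : Finset (Γ × O)), ∑ j : ι,
    if nb a j ∉ (D.cyl n : Finset (Γ × O)) ∧ (nb a j).1 = g then
      tauIn nb (D.cyl n) p (1, o) a else 0

/-- Seen from the last point, the meets of consecutive points do not increase. -/
def Flag (zs : List (Γ × O)) : Prop :=
  ∀ (t : κ) (i : ℕ), ∀ a ∈ zs[i]?, ∀ b ∈ zs[i + 1]?, ∀ c ∈ zs[i + 2]?, ∀ e ∈ zs.getLast?,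
    D.meet t e.1 b.1 c.1 ≤ D.meet t e.1 a.1 b.1

open Classical in
/-- The lists of `k` points in a cylinder with nonincreasing meets. -/
noncomputable def goodChains (n k : ℕ) : Finset (List (Γ × O)) :=
  ((Fintype.piFinset fun _ : Fin k => (D.cyl n : Finset (Γ × O))).image List.ofFn).filter D.Flag

end TreeAct

end Vale.Agent.P165.TL
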